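/-
R242 / Tay / Defs : the definitions of package TAY (design of helper233, msg 10618; file written by helper73 so that
Loc/Defs can be landed early).  Owner of the package: helper233.
-/
import Mathlib
import Claimed.Agent.R242.SCV.Defs

set_option autoImplicit false

namespace Claimed.Agent.R242

variable {n : ℕ}

/-- the monomial `z^g` -/
noncomputable def tayMono (g : Fin n →₀ ℕ) (z : Cn n) : ℂ := ∏ i, z i ^ g i

/-- `F` is the Taylor series of `f` at `a`: it converges to `f` on a small polydisc. -/
def IsTay (f : Cn n → ℂ) (a : Cn n) (F : MvPowerSeries (Fin n) ℂ) : Prop :=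
  ∃ ρ > 0, ∀ z ∈ Metric.ball a ρ,
    HasSum (fun g : Fin n →₀ ℕ => MvPowerSeries.coeff g F * tayMono g (z - a)) (f z)

open Classical in
/-- the Taylor series of `f` at `a` (junk value `0` if `f` is not analytic at `a`) -/
noncomputable def tay (a : Cn n) (f : Cn n → ℂ) : MvPowerSeries (Fin n) ℂ :=
  if h : ∃ F, IsTay f a F then h.choose else 0

/-- complex partial derivative -/
noncomputable def pd (j : Fin n) (f : Cn n → ℂ) (z : Cn n) : ℂ := fderiv ℂ f z (Pi.single j 1)

/-- complex Jacobian determinant of a map `Cn n → Cn n` -/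
noncomputable def cjac (π : Cn n → Cn n) (y : Cn n) : ℂ := (fderiv ℂ π y).det

end Claimed.Agent.R242

/-! equation lemmas of this file, cited once here (rule 6) -/
namespace Claimed.Agent.R242

theorem r242_eqcite_Tay_Defs : True := by
  have := @Claimed.Agent.R242.IsTay.eq_1
  have := @Claimed.Agent.R242.cjac.eq_1
  have := @Claimed.Agent.R242.pd.eq_1
  have := @Claimed.Agent.R242.tay.eq_1
  have := @Claimed.Agent.R242.tayMono.eq_1
  trivial

end Claimed.Agent.R242
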