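/-
Row 242 (S0480), package TAY (owner helper233), LEAF TAY-Mono.  Mathlib only, no paper.

Monomial functions `tayMono γ z = ∏ z_i^{γ_i}` on `Cn n = Fin n → ℂ` (sup norm), the complex partial derivative `pd j`,
the splitting `ℕ × (Fin n →₀ ℕ) ≃ (Fin (n+1) →₀ ℕ)` of exponents, multi-geometric series.

ROUTES.
* everything about `tayMono`: `Finset.prod_*`, `Finsupp.degree_eq_sum`, `norm_le_pi_norm`, `Fin.prod_univ_succ`.
* `tayMono_hasFDerivAt`-type statements: `tayMono γ = fun z => ∏ i, (z i)^(γ i)`: `HasFDerivAt.finset_prod` / `fun_prop`; for `pd_tayMono`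
  it is easier to split off the factor `j` (`Finset.mul_prod_erase` / `Fintype.prod_eq_mul_prod_compl`) or to use
  `MvPolynomial.pderiv` of a monomial together with `tayMono_eq_eval`.
* `tay_summable_geom`: induction on `n` with `tayConsEquiv` (`Equiv.summable_iff`) and `Summable.mul_of_nonneg`.
* `tay_pow_bound`: `k q^k` is bounded for `0 ≤ q < 1` (`summable_pow_mul_geometric_of_norm_lt_one` or
  `tendsto_self_mul_const_pow_of_lt_one`, a convergent sequence is bounded).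
-/
import Claimed.Agent.R242.Tay.Defs

set_option autoImplicit false

namespace Claimed.Agent.R242

open Metric Set Filter Topology

variable {n : ℕ}

/-! (`tayMono γ z = ∏ i, z i ^ γ i` and `pd j f z = fderiv ℂ f z (Pi.single j 1)` are defined in `Tay/Defs.lean`.) -/

/-! ### algebra of monomials -/

theorem tayMono_zero (z : Cn n) : tayMono 0 z = 1 := by
  simp [tayMono]

theorem tayMono_add (γ δ : Fin n →₀ ℕ) (z : Cn n) :
    tayMono (γ + δ) z = tayMono γ z * tayMono δ z := by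
  simp [tayMono, pow_add, Finset.prod_mul_distrib]

theorem tayMono_single (j : Fin n) (k : ℕ) (z : Cn n) :
    tayMono (Finsupp.single j k) z = z j ^ k := by
  unfold tayMono
  rw [Finset.prod_eq_single j]
  · simp
  · intro i _ hij
    simp [hij.symm]
  · intro h
    exact absurd (Finset.mem_univ j) h

theorem tayMono_at_zero (γ : Fin n →₀ ℕ) : tayMono γ (0 : Cn n) = if γ = 0 then 1 else 0 := by
  split_ifs with h
  · rw [h, tayMono_zero]
  · obtain ⟨i, hi⟩ : ∃ i, γ i ≠ 0 := by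
      by_contra hc
      push Not at hc
      exact h (Finsupp.ext hc)
    unfold tayMono
    exact Finset.prod_eq_zero (Finset.mem_univ i) (by simp [hi])

theorem tayMono_smul (γ : Fin n →₀ ℕ) (t : ℂ) (z : Cn n) :
    tayMono γ (t • z) = t ^ γ.degree * tayMono γ z := by
  simp [tayMono, mul_pow, Finset.prod_mul_distrib, Finsupp.degree_eq_sum, Finset.prod_pow_eq_pow_sum]

/-- coordinatewise product. -/
theorem tayMono_mul (γ : Fin n →₀ ℕ) (z w : Cn n) :
    tayMono γ (z * w) = tayMono γ z * tayMono γ w := by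
  simp [tayMono, mul_pow, Finset.prod_mul_distrib]

theorem tayMono_const (γ : Fin n →₀ ℕ) (t : ℂ) : tayMono γ (fun _ => t) = t ^ γ.degree := by
  simp [tayMono, Finsupp.degree_eq_sum, Finset.prod_pow_eq_pow_sum]

theorem tayMono_cons (k : ℕ) (γ : Fin n →₀ ℕ) (t : ℂ) (z : Cn n) :
    tayMono (Finsupp.cons k γ) (Fin.cons t z : Cn (n + 1)) = t ^ k * tayMono γ z := by
  simp [tayMono, Fin.prod_univ_succ]

theorem tayMono_eq_eval (γ : Fin n →₀ ℕ) (z : Cn n) :
    tayMono γ z = MvPolynomial.eval z (MvPolynomial.monomial γ (1 : ℂ)) := by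
  rw [MvPolynomial.eval_monomial, one_mul, Finsupp.prod_fintype _ _ (by simp)]
  rfl

theorem tayMono_ne_zero (γ : Fin n →₀ ℕ) {z : Cn n} (hz : ∀ i, z i ≠ 0) : tayMono γ z ≠ 0 :=
  Finset.prod_ne_zero_iff.2 fun i _ => pow_ne_zero _ (hz i)

/-! ### norms -/

theorem norm_tayMono (γ : Fin n →₀ ℕ) (z : Cn n) : ‖tayMono γ z‖ = ∏ i, ‖z i‖ ^ γ i := by
  simp [tayMono, norm_prod]

theorem norm_tayMono_le (γ : Fin n →₀ ℕ) {z : Cn n} {ρ : ℝ} (h : ∀ i, ‖z i‖ ≤ ρ) :
    ‖tayMono γ z‖ ≤ ρ ^ γ.degree := by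
  rw [norm_tayMono, Finsupp.degree_eq_sum, ← Finset.prod_pow_eq_pow_sum]
  exact Finset.prod_le_prod (fun i _ => by positivity)
    fun i _ => pow_le_pow_left₀ (norm_nonneg _) (h i) _

theorem norm_tayMono_le_norm (γ : Fin n →₀ ℕ) (z : Cn n) : ‖tayMono γ z‖ ≤ ‖z‖ ^ γ.degree :=
  norm_tayMono_le γ fun i => norm_le_pi_norm z i

/-! ### derivatives -/

theorem tayMono_differentiable (γ : Fin n →₀ ℕ) : Differentiable ℂ (tayMono γ) := by
  unfold tayMono
  fun_prop

theorem tayMono_analyticAt (γ : Fin n →₀ ℕ) (z : Cn n) : AnalyticAt ℂ (tayMono γ) z := by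
  unfold tayMono
  refine Finset.analyticAt_fun_prod _ fun i _ => ?_
  exact ((ContinuousLinearMap.proj (R := ℂ) (φ := fun _ : Fin n => ℂ) i).analyticAt z).pow _

theorem tayMono_update_aux (γ : Fin n →₀ ℕ) (j : Fin n) (z : Cn n) (t : ℂ) :
    tayMono γ (Function.update z j t) = t ^ γ j * ∏ i ∈ Finset.univ.erase j, z i ^ γ i := by
  unfold tayMono
  rw [← Finset.mul_prod_erase Finset.univ _ (Finset.mem_univ j), Function.update_self]
  congr 1
  refine Finset.prod_congr rfl fun i hi => ?_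
  rw [Function.update_of_ne (Finset.ne_of_mem_erase hi)]

theorem pd_tayMono (j : Fin n) (γ : Fin n →₀ ℕ) (z : Cn n) :
    pd j (tayMono γ) z = (γ j : ℂ) * tayMono (γ - Finsupp.single j 1) z := by
  have h1 : HasFDerivAt (tayMono γ) (fderiv ℂ (tayMono γ) z) z :=
    (tayMono_differentiable γ z).hasFDerivAt
  have h2 : HasDerivAt (fun t => Function.update z j t) (Pi.single j 1) (z j) :=
    hasDerivAt_update z j (z j)
  have h3 : HasDerivAt (fun t => tayMono γ (Function.update z j t))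
      (fderiv ℂ (tayMono γ) z (Pi.single j 1)) (z j) := by
    have h1' : HasFDerivAt (tayMono γ) (fderiv ℂ (tayMono γ) z) (Function.update z j (z j)) := by
      rwa [Function.update_eq_self]
    exact h1'.comp_hasDerivAt (z j) h2
  have h4 : HasDerivAt (fun t => tayMono γ (Function.update z j t))
      ((γ j : ℂ) * (z j) ^ (γ j - 1) * ∏ i ∈ Finset.univ.erase j, z i ^ γ i) (z j) := by
    simp only [tayMono_update_aux]
    exact (hasDerivAt_pow (γ j) (z j)).mul_const _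
  rw [pd, h3.unique h4]
  have : tayMono (γ - Finsupp.single j 1) z
      = (z j) ^ (γ j - 1) * ∏ i ∈ Finset.univ.erase j, z i ^ γ i := by
    unfold tayMono
    rw [← Finset.mul_prod_erase Finset.univ _ (Finset.mem_univ j)]
    congr 1
    · simp
    · refine Finset.prod_congr rfl fun i hi => ?_
      simp [(Finset.ne_of_mem_erase hi).symm]
  rw [this, mul_assoc]

/-- a linear form on `Cn n` is determined by its values on the basis vectors (sup norm). -/
theorem tay_norm_clm_le (L : Cn n →L[ℂ] ℂ) : ‖L‖ ≤ ∑ j, ‖L (Pi.single j 1)‖ := by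
  refine ContinuousLinearMap.opNorm_le_bound _ (Finset.sum_nonneg fun j _ => norm_nonneg _)
    fun z => ?_
  have hz : z = ∑ j, z j • (Pi.single j 1 : Cn n) := by
    ext i
    simp [Finset.sum_apply, Pi.single_apply]
  calc ‖L z‖ = ‖∑ j, z j • L (Pi.single j 1)‖ := by
        conv_lhs => rw [hz, map_sum]
        simp only [map_smul]
    _ ≤ ∑ j, ‖z j • L (Pi.single j 1)‖ := norm_sum_le _ _
    _ ≤ ∑ j, ‖L (Pi.single j 1)‖ * ‖z‖ := by
        refine Finset.sum_le_sum fun j _ => ?_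
        rw [norm_smul, mul_comm]
        exact mul_le_mul_of_nonneg_left (norm_le_pi_norm z j) (norm_nonneg _)
    _ = (∑ j, ‖L (Pi.single j 1)‖) * ‖z‖ := by rw [Finset.sum_mul]

theorem norm_fderiv_tayMono_le (γ : Fin n →₀ ℕ) {z : Cn n} {ρ : ℝ} (h : ‖z‖ ≤ ρ) :
    ‖fderiv ℂ (tayMono γ) z‖ ≤ (γ.degree : ℝ) * ρ ^ (γ.degree - 1) := by
  have hρ : 0 ≤ ρ := (norm_nonneg z).trans h
  refine (tay_norm_clm_le _).trans ?_
  have h1 : ∀ j, ‖fderiv ℂ (tayMono γ) z (Pi.single j 1)‖ ≤ (γ j : ℝ) * ρ ^ (γ.degree - 1) := by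
    intro j
    have h2 := pd_tayMono j γ z
    rw [pd] at h2
    rw [h2, norm_mul, Complex.norm_natCast]
    rcases Nat.eq_zero_or_pos (γ j) with h0 | h0
    · simp [h0]
    · refine mul_le_mul_of_nonneg_left ?_ (Nat.cast_nonneg _)
      have h3 : (γ - Finsupp.single j 1).degree = γ.degree - 1 := by
        have h4 : γ = (γ - Finsupp.single j 1) + Finsupp.single j 1 := by
          ext i
          by_cases hij : j = i
          · subst hij
            simp
            omega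
          · simp [hij]
        conv_rhs => rw [h4, map_add, Finsupp.degree_single]
        simp
      rw [← h3]
      exact norm_tayMono_le _ fun i => (norm_le_pi_norm z i).trans h
  refine (Finset.sum_le_sum fun j _ => h1 j).trans ?_
  rw [← Finset.sum_mul, Finsupp.degree_eq_sum]
  push_cast
  exact le_rfl

/-! ### exponents in `n + 1` variables -/

/-- `(k, γ) ↦ Finsupp.cons k γ`. -/
noncomputable def tayConsEquiv (n : ℕ) : ℕ × (Fin n →₀ ℕ) ≃ (Fin (n + 1) →₀ ℕ) where
  toFun p := Finsupp.cons p.1 p.2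
  invFun γ := (γ 0, Finsupp.tail γ)
  left_inv p := by simp
  right_inv γ := by simp

theorem tay_degree_cons (k : ℕ) (γ : Fin n →₀ ℕ) :
    (Finsupp.cons k γ).degree = k + γ.degree := by
  simp [Finsupp.degree_eq_sum, Fin.sum_univ_succ]

/-! ### geometric series -/

theorem tay_summable_geom {x : ℝ} (h0 : 0 ≤ x) (h1 : x < 1) :
    Summable (fun γ : Fin n →₀ ℕ => x ^ γ.degree) := by
  induction n with
  | zero => exact summable_of_hasFiniteSupport (Set.toFinite _)
  | succ n ih =>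
    have hg : Summable (fun k : ℕ => x ^ k) := summable_geometric_of_lt_one h0 h1
    have hg0 : 0 ≤ (fun k : ℕ => x ^ k) := fun k => pow_nonneg h0 k
    have ih0 : 0 ≤ (fun γ : Fin n →₀ ℕ => x ^ γ.degree) := fun γ => pow_nonneg h0 _
    have h3 := Summable.mul_of_nonneg hg ih hg0 ih0
    rw [← (tayConsEquiv n).summable_iff]
    refine h3.congr fun p => ?_
    simp only [Function.comp_apply, tayConsEquiv, Equiv.coe_fn_mk, tay_degree_cons, pow_add]

/-- `k ρ^{k-1} ≤ C ρ'^k`. -/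
theorem tay_pow_bound {ρ ρ' : ℝ} (h0 : 0 ≤ ρ) (h1 : ρ < ρ') :
    ∃ C : ℝ, 0 ≤ C ∧ ∀ k : ℕ, (k : ℝ) * ρ ^ (k - 1) ≤ C * ρ' ^ k := by
  have hρ' : 0 < ρ' := lt_of_le_of_lt h0 h1
  have hq0 : 0 ≤ ρ / ρ' := div_nonneg h0 hρ'.le
  have hq1 : ρ / ρ' < 1 := (div_lt_one hρ').2 h1
  have hs : Summable (fun m : ℕ => (m : ℝ) ^ 1 * (ρ / ρ') ^ m) :=
    summable_pow_mul_geometric_of_norm_lt_one 1 (by rwa [Real.norm_of_nonneg hq0])
  have hS : ∀ m : ℕ, (m : ℝ) * (ρ / ρ') ^ m ≤ ∑' m : ℕ, (m : ℝ) ^ 1 * (ρ / ρ') ^ m := by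
    intro m
    have := hs.le_tsum m fun j _ => by positivity
    simpa using this
  have hS0 : 0 ≤ ∑' m : ℕ, (m : ℝ) ^ 1 * (ρ / ρ') ^ m := tsum_nonneg fun m => by positivity
  refine ⟨((∑' m : ℕ, (m : ℝ) ^ 1 * (ρ / ρ') ^ m) + 1) / ρ', by positivity, fun k => ?_⟩
  rcases k with _ | m
  · simp
    positivity
  · have h2 : ρ ^ m = (ρ / ρ') ^ m * ρ' ^ m := by
      rw [← mul_pow, div_mul_cancel₀ _ hρ'.ne']
    have h3 : (ρ / ρ') ^ m ≤ 1 := pow_le_one₀ hq0 hq1.le
    have h4 : ((m + 1 : ℕ) : ℝ) * (ρ / ρ') ^ m ≤ (∑' m : ℕ, (m : ℝ) ^ 1 * (ρ / ρ') ^ m) + 1 := by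
      push_cast
      rw [add_mul, one_mul]
      exact add_le_add (hS m) h3
    calc ((m + 1 : ℕ) : ℝ) * ρ ^ (m + 1 - 1) = (((m + 1 : ℕ) : ℝ) * (ρ / ρ') ^ m) * ρ' ^ m := by
          rw [Nat.add_sub_cancel, h2, mul_assoc]
      _ ≤ ((∑' m : ℕ, (m : ℝ) ^ 1 * (ρ / ρ') ^ m) + 1) * ρ' ^ m :=
          mul_le_mul_of_nonneg_right h4 (by positivity)
      _ = ((∑' m : ℕ, (m : ℝ) ^ 1 * (ρ / ρ') ^ m) + 1) / ρ' * ρ' ^ (m + 1) := by
          rw [pow_succ]
          field_simp

end Claimed.Agent.R242
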