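/-
Row 242 (S0480), package TAY (owner helper233).  `C¹` over the complex numbers on a finite dimensional space `⇒` analytic.
COPY (renamed namespace, nothing else changed) of the first two sections of `R269/Lib/SCVa.lean` (helper270; itself ported from the
sorry-free library of the second-list target 056), so that row 242 does not depend on the files of another row.
Public result: `TayReg.analyticOnNhd_of_contDiffOn_one`.
-/
import Mathlib


/-! ## SanitySCVCurry -/


set_option autoImplicit false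

/-!
# Result 056, several complex variables (1): differentiating a family of continuous functions

Let `K` be a compact space and `c : E → C(K, G)` a family of maps which is differentiable in the
first variable on an open set `V`, with a jointly continuous partial derivative.  Then `c` is a `C¹`
map from `V` to the Banach space `C(K, G)`.
-/

namespace Claimed.Agent.R242
namespace TayReg

open Set Metric Filter Topology

variable {E : Type*} [NormedAddCommGroup E] [NormedSpace ℂ E]
  {G : Type*} [NormedAddCommGroup G] [NormedSpace ℂ G]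
  {K : Type*} [TopologicalSpace K] [CompactSpace K]

/-- The continuous linear map `E → C(K, G)` defined by a continuous family of continuous linear maps
`E → G`. -/
noncomputable def swapCLM (Φ : C(K, E →L[ℂ] G)) : E →L[ℂ] C(K, G) :=
  LinearMap.mkContinuous
    { toFun := fun h => ⟨fun ζ => Φ ζ h, (Φ.continuous.clm_apply continuous_const)⟩
      map_add' := fun h h' => by ext ζ; simp
      map_smul' := fun c h => by ext ζ; simp }
    ‖Φ‖ (fun h => by
      rw [ContinuousMap.norm_le _ (by positivity)]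
      intro ζ
      exact ((Φ ζ).le_opNorm h).trans
        (mul_le_mul_of_nonneg_right (Φ.norm_coe_le_norm ζ) (norm_nonneg h)))

@[simp] lemma swapCLM_apply (Φ : C(K, E →L[ℂ] G)) (h : E) (ζ : K) : swapCLM Φ h ζ = Φ ζ h := rfl

lemma norm_swapCLM_sub_le (Φ Ψ : C(K, E →L[ℂ] G)) : ‖swapCLM Φ - swapCLM Ψ‖ ≤ ‖Φ - Ψ‖ := by
  refine ContinuousLinearMap.opNorm_le_bound _ (norm_nonneg (Φ - Ψ)) fun h => ?_
  rw [ContinuousMap.norm_le _ (by positivity)]
  intro ζ
  have : (swapCLM Φ - swapCLM Ψ) h ζ = (Φ - Ψ) ζ h := by simp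
  rw [this]
  exact (((Φ - Ψ) ζ).le_opNorm h).trans
    (mul_le_mul_of_nonneg_right ((Φ - Ψ).norm_coe_le_norm ζ) (norm_nonneg h))

lemma continuous_swapCLM : Continuous (swapCLM : C(K, E →L[ℂ] G) → E →L[ℂ] C(K, G)) := by
  have hL : LipschitzWith 1 (swapCLM : C(K, E →L[ℂ] G) → E →L[ℂ] C(K, G)) := by
    refine LipschitzWith.of_dist_le_mul fun Φ Ψ => ?_
    have h1 : dist (swapCLM Φ) (swapCLM Ψ) = ‖swapCLM Φ - swapCLM Ψ‖ :=
      dist_eq_norm (swapCLM Φ) (swapCLM Ψ)
    have h2 : dist Φ Ψ = ‖Φ - Ψ‖ := dist_eq_norm Φ Ψ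
    rw [h1, h2]
    simpa using norm_swapCLM_sub_le Φ Ψ
  exact hL.continuous

omit [CompactSpace K] in
/-- A jointly continuous family, as a map into `C(K, H)`, is continuous. -/
lemma continuousOn_of_continuousOn_uncurry {X H : Type*} [TopologicalSpace X]
    [TopologicalSpace H] {V : Set X} (c : X → C(K, H))
    (h : ContinuousOn (fun p : X × K => c p.1 p.2) (V ×ˢ univ)) : ContinuousOn c V := by
  rw [continuousOn_iff_continuous_domRestrict]
  apply ContinuousMap.continuous_of_continuous_uncurry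
  have : (Function.uncurry fun (x : V) (y : K) => (V.domRestrict c x) y) =
      (fun p : X × K => c p.1 p.2) ∘ (fun q : V × K => ((q.1 : X), q.2)) := rfl
  rw [this]
  refine h.comp_continuous (by fun_prop) fun q => ⟨q.1.2, mem_univ _⟩

/-- **Differentiation of a family of continuous functions.** -/
theorem hasFDerivAt_continuousMap {V : Set E} (hV : IsOpen V) (c : E → C(K, G))
    (c' : E → C(K, E →L[ℂ] G))
    (hd : ∀ x ∈ V, ∀ ζ, HasFDerivAt (fun y => c y ζ) (c' x ζ) x)
    (hc' : ContinuousOn c' V) {x : E} (hx : x ∈ V) :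
    HasFDerivAt c (swapCLM (c' x)) x := by
  rw [hasFDerivAt_iff_isLittleO_nhds_zero, Asymptotics.isLittleO_iff]
  intro ε hε
  have h1 : ∀ᶠ y in 𝓝 x, y ∈ V ∧ ‖c' y - c' x‖ ≤ ε := by
    have hcont : ContinuousAt c' x := hc'.continuousAt (hV.mem_nhds hx)
    have h2 : ∀ᶠ y in 𝓝 x, dist (c' y) (c' x) < ε := Metric.continuousAt_iff'.1 hcont ε hε
    filter_upwards [hV.mem_nhds hx, h2] with y hy1 hy2
    exact ⟨hy1, le_of_eq_of_le (dist_eq_norm (c' y) (c' x)).symm hy2.le⟩
  obtain ⟨δ, hδ, hball⟩ := Metric.eventually_nhds_iff_ball.1 h1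
  have h0 : ∀ᶠ h in 𝓝 (0 : E), x + h ∈ ball x δ := by
    have : Tendsto (fun h : E => x + h) (𝓝 0) (𝓝 (x + 0)) :=
      (continuous_const.add continuous_id).tendsto (0 : E)
    rw [add_zero] at this
    exact this.eventually (ball_mem_nhds x hδ)
  filter_upwards [h0] with h hh
  rw [ContinuousMap.norm_le _ (by positivity)]
  intro ζ
  have key := (convex_ball x δ).norm_image_sub_le_of_norm_hasFDerivWithin_le' (𝕜 := ℂ)
    (f := fun y => c y ζ) (f' := fun y => c' y ζ) (φ := c' x ζ) (C := ε)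
    (fun y hy => (hd y (hball y hy).1 ζ).hasFDerivWithinAt)
    (fun y hy => by
      have := (c' y - c' x).norm_coe_le_norm ζ
      exact this.trans (hball y hy).2)
    (mem_ball_self hδ) hh
  simpa using key

/-- The family `x ↦ c x` is `C¹` on `V`. -/
theorem contDiffOn_one_continuousMap {V : Set E} (hV : IsOpen V) (c : E → C(K, G))
    (c' : E → C(K, E →L[ℂ] G))
    (hd : ∀ x ∈ V, ∀ ζ, HasFDerivAt (fun y => c y ζ) (c' x ζ) x)
    (hc' : ContinuousOn c' V) : ContDiffOn ℂ 1 c V := by
  have h1 : ∀ x ∈ V, HasFDerivAt c (swapCLM (c' x)) x := fun x hx =>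
    hasFDerivAt_continuousMap hV c c' hd hc' hx
  have : (1 : WithTop ℕ∞) = 0 + 1 := by simp
  rw [this, contDiffOn_succ_iff_fderiv_of_isOpen hV]
  refine ⟨fun x hx => (h1 x hx).differentiableAt.differentiableWithinAt, by simp, ?_⟩
  rw [contDiffOn_zero]
  refine (continuous_swapCLM.comp_continuousOn hc').congr fun x hx => ?_
  exact (h1 x hx).fderiv

end TayReg
end Claimed.Agent.R242


/-! ## SanitySCVOsgood -/


set_option autoImplicit false
set_option linter.unusedSectionVars false

/-!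
# Result 056, several complex variables (2): `C¹` functions of several complex variables are analytic

Mathlib knows that a complex differentiable function of *one* complex variable with values in a
Banach space is analytic.  We deduce, by induction on the dimension, that a `C¹` function (in the
complex sense) on an open subset of a finite dimensional complex normed space is analytic.

In the induction step a function `f (x, t)` is written, by Cauchy's formula in the variable `t`, as
`f (x, t) = K t (c x)` where `c x = f (x, ·) ∈ C(sphere, G)` is `C¹`, hence analytic by the induction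
hypothesis applied to the Banach space `C(sphere, G)`, and `K t : C(sphere, G) →L[ℂ] G` is the Cauchy
kernel, which is given by a power series in `t`.
-/

namespace Claimed.Agent.R242
namespace TayReg

open Set Metric Filter Topology Real Complex

variable {G : Type*} [NormedAddCommGroup G] [NormedSpace ℂ G]

/-- Extension by zero of a function on a circle. -/
noncomputable def extendSphere (c : ℂ) (R : ℝ) (φ : C(sphere c R, G)) : ℂ → G :=
  open Classical in fun z => if h : z ∈ sphere c R then φ ⟨z, h⟩ else 0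

lemma extendSphere_of_mem {c : ℂ} {R : ℝ} (φ : C(sphere c R, G)) {z : ℂ} (h : z ∈ sphere c R) :
    extendSphere c R φ z = φ ⟨z, h⟩ := by
  unfold extendSphere
  exact dif_pos h

lemma extendSphere_of_notMem {c : ℂ} {R : ℝ} (φ : C(sphere c R, G)) {z : ℂ}
    (h : z ∉ sphere c R) : extendSphere c R φ z = 0 := by
  unfold extendSphere
  exact dif_neg h

lemma continuousOn_extendSphere {c : ℂ} {R : ℝ} (φ : C(sphere c R, G)) :
    ContinuousOn (extendSphere c R φ) (sphere c R) := by
  rw [continuousOn_iff_continuous_domRestrict]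
  have : (sphere c R).domRestrict (extendSphere c R φ) = φ := by
    funext z
    exact extendSphere_of_mem φ z.2
  rw [this]
  exact φ.continuous

lemma norm_extendSphere_le {c : ℂ} {R : ℝ} (φ : C(sphere c R, G)) (z : ℂ) :
    ‖extendSphere c R φ z‖ ≤ ‖φ‖ := by
  by_cases h : z ∈ sphere c R
  · rw [extendSphere_of_mem φ h]
    exact φ.norm_coe_le_norm _
  · rw [extendSphere_of_notMem φ h, norm_zero]
    exact norm_nonneg φ

lemma extendSphere_add {c : ℂ} {R : ℝ} (φ ψ : C(sphere c R, G)) (z : ℂ) :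
    extendSphere c R (φ + ψ) z = extendSphere c R φ z + extendSphere c R ψ z := by
  by_cases h : z ∈ sphere c R
  · simp [extendSphere_of_mem _ h]
  · simp [extendSphere_of_notMem _ h]

lemma extendSphere_smul {c : ℂ} {R : ℝ} (a : ℂ) (φ : C(sphere c R, G)) (z : ℂ) :
    extendSphere c R (a • φ) z = a • extendSphere c R φ z := by
  by_cases h : z ∈ sphere c R
  · simp [extendSphere_of_mem _ h]
  · simp [extendSphere_of_notMem _ h]

/-- The continuous linear functional `φ ↦ ∮ w(z) φ(z) dz` on `C(sphere, G)`. -/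
noncomputable def circleCLM (c : ℂ) {R : ℝ} (hR : 0 ≤ R) (w : ℂ → ℂ)
    (hw : ContinuousOn w (sphere c R)) (C : ℝ) (hC : ∀ z ∈ sphere c R, ‖w z‖ ≤ C) :
    C(sphere c R, G) →L[ℂ] G :=
  LinearMap.mkContinuous
    { toFun := fun φ => ∮ z in C(c, R), w z • extendSphere c R φ z
      map_add' := fun φ ψ => by
        simp only [extendSphere_add, smul_add]
        exact circleIntegral.integral_add
          ((hw.smul (continuousOn_extendSphere φ)).circleIntegrable hR)
          ((hw.smul (continuousOn_extendSphere ψ)).circleIntegrable hR)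
      map_smul' := fun a φ => by
        simp only [extendSphere_smul, RingHom.id_apply]
        rw [← circleIntegral.integral_smul]
        congr 1
        funext z
        rw [smul_comm] }
    (2 * π * R * C) (fun φ => by
      have := circleIntegral.norm_integral_le_of_norm_le_const (c := c) hR
        (f := fun z => w z • extendSphere c R φ z) (C := C * ‖φ‖) (fun z hz => by
          rw [norm_smul]
          exact mul_le_mul (hC z hz) (norm_extendSphere_le φ z) (norm_nonneg _)
            ((norm_nonneg _).trans (hC z hz)))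
      calc _ ≤ 2 * π * R * (C * ‖φ‖) := this
        _ = _ := by ring)

lemma circleCLM_apply (c : ℂ) {R : ℝ} (hR : 0 ≤ R) (w : ℂ → ℂ)
    (hw : ContinuousOn w (sphere c R)) (C : ℝ) (hC : ∀ z ∈ sphere c R, ‖w z‖ ≤ C)
    (φ : C(sphere c R, G)) :
    circleCLM c hR w hw C hC φ = ∮ z in C(c, R), w z • extendSphere c R φ z := rfl

lemma norm_circleCLM_le (c : ℂ) {R : ℝ} (hR : 0 ≤ R) (w : ℂ → ℂ)
    (hw : ContinuousOn w (sphere c R)) (C : ℝ) (hC : ∀ z ∈ sphere c R, ‖w z‖ ≤ C) (hC0 : 0 ≤ C) :
    ‖(circleCLM c hR w hw C hC : C(sphere c R, G) →L[ℂ] G)‖ ≤ 2 * π * R * C :=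
  LinearMap.mkContinuous_norm_le _ (by positivity) _

/-! ### The Cauchy kernel as a power series with operator coefficients -/

lemma continuousOn_cauchyWeight (c : ℂ) {R : ℝ} (hR : 0 < R) (k : ℕ) :
    ContinuousOn (fun z : ℂ => (z - c)⁻¹ ^ k * (z - c)⁻¹) (sphere c R) := by
  have h : ContinuousOn (fun z : ℂ => (z - c)⁻¹) (sphere c R) := by
    refine ContinuousOn.inv₀ (by fun_prop) fun z hz => ?_
    rw [mem_sphere_iff_norm] at hz
    intro h0
    rw [h0, norm_zero] at hz
    exact hR.ne hz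
  exact (h.pow k).mul h

lemma norm_cauchyWeight_le (c : ℂ) {R : ℝ} (k : ℕ) :
    ∀ z ∈ sphere c R, ‖(z - c)⁻¹ ^ k * (z - c)⁻¹‖ ≤ R⁻¹ ^ k * R⁻¹ := by
  intro z hz
  rw [mem_sphere_iff_norm] at hz
  rw [norm_mul, norm_pow, norm_inv, hz]

/-- The `k`-th Cauchy coefficient, as a continuous linear functional on `C(sphere, G)`. -/
noncomputable def cauchyCoeffCLM (c : ℂ) {R : ℝ} (hR : 0 < R) (k : ℕ) :
    C(sphere c R, G) →L[ℂ] G :=
  (2 * π * I : ℂ)⁻¹ • circleCLM c hR.le (fun z : ℂ => (z - c)⁻¹ ^ k * (z - c)⁻¹)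
    (continuousOn_cauchyWeight c hR k) (R⁻¹ ^ k * R⁻¹) (norm_cauchyWeight_le c k)

lemma norm_cauchyCoeffCLM_le (c : ℂ) {R : ℝ} (hR : 0 < R) (k : ℕ) :
    ‖(cauchyCoeffCLM c hR k : C(sphere c R, G) →L[ℂ] G)‖ ≤ R⁻¹ ^ k := by
  rw [cauchyCoeffCLM, norm_smul]
  have h1 := norm_circleCLM_le (G := G) c hR.le (fun z : ℂ => (z - c)⁻¹ ^ k * (z - c)⁻¹)
    (continuousOn_cauchyWeight c hR k) (R⁻¹ ^ k * R⁻¹) (norm_cauchyWeight_le c k) (by positivity)
  have h2 : ‖(2 * π * I : ℂ)⁻¹‖ = (2 * π)⁻¹ := by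
    simp [abs_of_pos Real.pi_pos]
  rw [h2]
  calc (2 * π)⁻¹ * _ ≤ (2 * π)⁻¹ * (2 * π * R * (R⁻¹ ^ k * R⁻¹)) := by gcongr
    _ = R⁻¹ ^ k := by
      field_simp

lemma cauchyCoeffCLM_apply (c : ℂ) {R : ℝ} (hR : 0 < R) (k : ℕ) (φ : C(sphere c R, G)) :
    ContinuousMultilinearMap.mkPiRing ℂ (Fin k) (cauchyCoeffCLM c hR k φ) =
      cauchyPowerSeries (extendSphere c R φ) c R k := by
  simp only [cauchyPowerSeries, cauchyCoeffCLM, smul_apply, circleCLM_apply,
    mul_smul]

/-- The Cauchy kernel, as a formal power series with coefficients in `C(sphere, G) →L[ℂ] G`. -/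
noncomputable def cauchyKernelSeries (G : Type*) [NormedAddCommGroup G] [NormedSpace ℂ G]
    (c : ℂ) {R : ℝ} (hR : 0 < R) :
    FormalMultilinearSeries ℂ ℂ (C(sphere c R, G) →L[ℂ] G) :=
  fun k => ContinuousMultilinearMap.mkPiRing ℂ (Fin k) (cauchyCoeffCLM c hR k)

lemma le_radius_cauchyKernelSeries (c : ℂ) {R : ℝ} (hR : 0 < R) :
    ENNReal.ofReal R ≤ (cauchyKernelSeries G c hR).radius := by
  have := (cauchyKernelSeries G c hR).le_radius_of_bound 1 (r := R.toNNReal) (fun k => by
    rw [cauchyKernelSeries, ContinuousMultilinearMap.norm_mkPiRing, Real.coe_toNNReal _ hR.le]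
    calc _ ≤ R⁻¹ ^ k * R ^ k := by
          gcongr
          exact norm_cauchyCoeffCLM_le c hR k
      _ = 1 := by
        rw [← mul_pow, inv_mul_cancel₀ hR.ne', one_pow])
  exact this

variable [CompleteSpace G]

/-- The Cauchy kernel `K s : C(sphere, G) →L[ℂ] G`. -/
noncomputable def cauchyKernel (G : Type*) [NormedAddCommGroup G] [NormedSpace ℂ G]
    (c : ℂ) {R : ℝ} (hR : 0 < R) (s : ℂ) : C(sphere c R, G) →L[ℂ] G :=
  (cauchyKernelSeries G c hR).sum s

lemma mem_eball_cauchyKernelSeries (c : ℂ) {R : ℝ} (hR : 0 < R) {s : ℂ} (hs : ‖s‖ < R) :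
    s ∈ Metric.eball (0 : ℂ) (cauchyKernelSeries G c hR).radius := by
  rw [Metric.mem_eball, edist_zero_right]
  refine lt_of_lt_of_le ?_ (le_radius_cauchyKernelSeries c hR)
  rw [← ofReal_norm]
  exact (ENNReal.ofReal_lt_ofReal_iff hR).2 hs

lemma hasFPowerSeriesOnBall_cauchyKernel (c : ℂ) {R : ℝ} (hR : 0 < R) :
    HasFPowerSeriesOnBall (cauchyKernel G c hR) (cauchyKernelSeries G c hR) 0
      (cauchyKernelSeries G c hR).radius :=
  (cauchyKernelSeries G c hR).hasFPowerSeriesOnBall
    (lt_of_lt_of_le (ENNReal.ofReal_pos.2 hR) (le_radius_cauchyKernelSeries c hR))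

lemma analyticAt_cauchyKernel (c : ℂ) {R : ℝ} (hR : 0 < R) {s : ℂ} (hs : ‖s‖ < R) :
    AnalyticAt ℂ (cauchyKernel G c hR) s :=
  (hasFPowerSeriesOnBall_cauchyKernel c hR).analyticAt_of_mem
    (mem_eball_cauchyKernelSeries c hR hs)

/-- **Cauchy's formula**: if `g` is differentiable on the closed disc and `φ` is its restriction to
the boundary circle, then `g (c + s) = K s φ`. -/
lemma cauchyKernel_apply (c : ℂ) {R : ℝ} (hR : 0 < R) {s : ℂ} (hs : ‖s‖ < R) {g : ℂ → G}
    (hg : DifferentiableOn ℂ g (closedBall c R)) (φ : C(sphere c R, G))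
    (hφ : ∀ z : sphere c R, φ z = g z) : cauchyKernel G c hR s φ = g (c + s) := by
  have h1 := (hasFPowerSeriesOnBall_cauchyKernel (G := G) c hR).hasSum
    (mem_eball_cauchyKernelSeries c hR hs)
  rw [zero_add] at h1
  have h2 := (ContinuousLinearMap.apply ℂ G φ).hasSum h1
  obtain ⟨R', rfl⟩ : ∃ R' : NNReal, (R' : ℝ) = R := ⟨R.toNNReal, Real.coe_toNNReal _ hR.le⟩
  have h3 := (hg.hasFPowerSeriesOnBall (by exact_mod_cast hR)).hasSum (y := s) (by
    rw [Metric.mem_eball, edist_zero_right, ← ofReal_norm, ← ENNReal.ofReal_coe_nnreal]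
    exact (ENNReal.ofReal_lt_ofReal_iff hR).2 hs)
  refine h2.unique ?_
  convert h3 using 2 with k
  have h4 : cauchyPowerSeries g c R' k = cauchyPowerSeries (extendSphere c R' φ) c R' k := by
    simp only [cauchyPowerSeries]
    congr 2
    refine circleIntegral.integral_congr hR.le fun z hz => ?_
    rw [extendSphere_of_mem φ hz, hφ]
  rw [h4, ← cauchyCoeffCLM_apply c hR k φ]
  simp [cauchyKernelSeries]

/-! ### The induction on the dimension -/

universe v

/-- `C¹` functions on open subsets of `E`, with values in Banach spaces, are analytic. -/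
def HolReg (E : Type*) [NormedAddCommGroup E] [NormedSpace ℂ E] : Prop :=
  ∀ (G : Type v) [NormedAddCommGroup G] [NormedSpace ℂ G] [CompleteSpace G] (f : E → G)
    (U : Set E), IsOpen U → ContDiffOn ℂ 1 f U → AnalyticOnNhd ℂ f U

theorem HolReg.prod {E : Type*} [NormedAddCommGroup E] [NormedSpace ℂ E] (hE : HolReg.{v} E) :
    HolReg.{v} (E × ℂ) := by
  intro G _ _ _ f Ω hΩ hf p₀ hp₀
  obtain ⟨x₀, t₀⟩ := p₀
  obtain ⟨ε, hε, hball⟩ := Metric.isOpen_iff.1 hΩ _ hp₀
  set R : ℝ := ε / 2 with hRdef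
  have hR : 0 < R := by positivity
  set V : Set E := ball x₀ ε with hVdef
  have hV : IsOpen V := isOpen_ball
  have hmem : ∀ x ∈ V, ∀ z ∈ closedBall t₀ R, (x, z) ∈ Ω := by
    intro x hx z hz
    apply hball
    rw [mem_ball, Prod.dist_eq, max_lt_iff]
    refine ⟨hx, lt_of_le_of_lt hz ?_⟩
    rw [hRdef]; linarith
  have hmemS : ∀ x ∈ V, ∀ z : sphere t₀ R, (x, (z : ℂ)) ∈ Ω := fun x hx z =>
    hmem x hx z (sphere_subset_closedBall z.2)
  have hf' : ContinuousOn (fderiv ℂ f) Ω := hf.continuousOn_fderiv_of_isOpen hΩ le_rfl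
  have hdiff : ∀ p ∈ Ω, DifferentiableAt ℂ f p := fun p hp =>
    (hf.differentiableOn one_ne_zero).differentiableAt (hΩ.mem_nhds hp)
  classical
  let c : E → C(sphere t₀ R, G) := fun x =>
    if hx : x ∈ V then ⟨fun z => f (x, z),
      hf.continuousOn.comp_continuous (by fun_prop) (hmemS x hx)⟩ else 0
  let c' : E → C(sphere t₀ R, E →L[ℂ] G) := fun x =>
    if hx : x ∈ V then ⟨fun z => (fderiv ℂ f (x, z)).comp (ContinuousLinearMap.inl ℂ E ℂ),
      (hf'.comp_continuous (by fun_prop) (hmemS x hx)).clm_comp continuous_const⟩ else 0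
  have hc : ∀ x ∈ V, ∀ z, c x z = f (x, z) := by
    intro x hx z
    simp only [c, dif_pos hx]
    rfl
  have hc'v : ∀ x ∈ V, ∀ z, c' x z = (fderiv ℂ f (x, z)).comp (ContinuousLinearMap.inl ℂ E ℂ) := by
    intro x hx z
    simp only [c', dif_pos hx]
    rfl
  have hd : ∀ x ∈ V, ∀ ζ, HasFDerivAt (fun y => c y ζ) (c' x ζ) x := by
    intro x hx ζ
    rw [hc'v x hx ζ]
    have h1 : HasFDerivAt (fun y : E => f (y, (ζ : ℂ)))
        ((fderiv ℂ f (x, ζ)).comp (ContinuousLinearMap.inl ℂ E ℂ)) x :=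
      (hdiff _ (hmemS x hx ζ)).hasFDerivAt.comp x (hasFDerivAt_prodMk_left x (ζ : ℂ))
    refine h1.congr_of_eventuallyEq ?_
    filter_upwards [hV.mem_nhds hx] with y hy using hc y hy ζ
  have hc'cont : ContinuousOn c' V := by
    apply continuousOn_of_continuousOn_uncurry
    have h1 : ContinuousOn (fun p : E × sphere t₀ R =>
        (fderiv ℂ f (p.1, (p.2 : ℂ))).comp (ContinuousLinearMap.inl ℂ E ℂ)) (V ×ˢ univ) := by
      refine ContinuousOn.clm_comp ?_ continuousOn_const
      exact hf'.comp (by fun_prop) fun p hp => hmemS p.1 hp.1 p.2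
    exact h1.congr fun p hp => hc'v p.1 hp.1 p.2
  have hcan : AnalyticAt ℂ c x₀ :=
    hE _ c V hV (contDiffOn_one_continuousMap hV c c' hd hc'cont) x₀ (mem_ball_self hε)
  have hK : AnalyticAt ℂ (fun p : E × ℂ => cauchyKernel G t₀ hR (p.2 - t₀)) (x₀, t₀) := by
    have h1 : AnalyticAt ℂ (cauchyKernel G t₀ hR) (((x₀, t₀) : E × ℂ).2 - t₀) := by
      simpa using analyticAt_cauchyKernel (G := G) t₀ hR (s := 0) (by simpa using hR)
    exact AnalyticAt.comp (f := fun p : E × ℂ => p.2 - t₀) h1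
      (analyticAt_snd.sub analyticAt_const)
  have hC : AnalyticAt ℂ (fun p : E × ℂ => c p.1) (x₀, t₀) :=
    AnalyticAt.comp (g := c) (f := fun p : E × ℂ => p.1) (x := (x₀, t₀)) hcan analyticAt_fst
  have hmain : AnalyticAt ℂ (fun p : E × ℂ => cauchyKernel G t₀ hR (p.2 - t₀) (c p.1)) (x₀, t₀) :=
    AnalyticAt.comp₂ (h := fun q : (C(sphere t₀ R, G) →L[ℂ] G) × C(sphere t₀ R, G) => q.1 q.2)
      ((ContinuousLinearMap.id ℂ (C(sphere t₀ R, G) →L[ℂ] G)).analyticAt_bilinear _) hK hC
  refine hmain.congr ?_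
  have hnhds : V ×ˢ ball t₀ R ∈ 𝓝 (x₀, t₀) :=
    prod_mem_nhds (hV.mem_nhds (mem_ball_self hε)) (ball_mem_nhds t₀ hR)
  filter_upwards [hnhds] with p hp
  have hg : DifferentiableOn ℂ (fun z : ℂ => f (p.1, z)) (closedBall t₀ R) := by
    intro z hz
    exact ((hdiff _ (hmem p.1 hp.1 z hz)).comp z
      (hasFDerivAt_prodMk_right p.1 z).differentiableAt).differentiableWithinAt
  have := cauchyKernel_apply t₀ hR (s := p.2 - t₀) (by simpa [dist_eq_norm] using hp.2) hg (c p.1)
    (fun z => hc p.1 hp.1 z)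
  rw [this]
  simp

theorem HolReg.of_equiv {E E' : Type*} [NormedAddCommGroup E] [NormedSpace ℂ E]
    [NormedAddCommGroup E'] [NormedSpace ℂ E'] (e : E ≃L[ℂ] E') (hE : HolReg.{v} E) :
    HolReg.{v} E' := by
  intro G _ _ _ f U hU hf y hy
  have h1 : ContDiffOn ℂ 1 (f ∘ e) (e ⁻¹' U) :=
    hf.comp e.contDiff.contDiffOn (fun x hx => hx)
  have h2 : AnalyticAt ℂ (f ∘ e) (e.symm y) :=
    hE G (f ∘ e) (e ⁻¹' U) (hU.preimage e.continuous) h1 (e.symm y) (by simpa using hy)
  have h3 : AnalyticAt ℂ ((f ∘ e) ∘ e.symm) y :=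
    h2.comp ((e.symm : E' →L[ℂ] E).analyticAt y)
  have h4 : (f ∘ e) ∘ e.symm = f := by
    funext z
    simp
  rwa [h4] at h3

theorem holReg_of_subsingleton (E : Type*) [NormedAddCommGroup E] [NormedSpace ℂ E]
    [Subsingleton E] : HolReg.{v} E := by
  intro G _ _ _ f U _ _ y _
  have : f = fun _ => f 0 := funext fun z => congrArg f (Subsingleton.elim z 0)
  rw [this]
  exact analyticAt_const

theorem holReg_pi (n : ℕ) : HolReg.{v} (Fin n → ℂ) := by
  induction n with
  | zero => exact holReg_of_subsingleton _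
  | succ n ih =>
    refine ih.prod.of_equiv (ContinuousLinearEquiv.ofFinrankEq ?_)
    simp

/-- **A `C¹` function on an open subset of a finite dimensional complex normed space, with values
in a Banach space, is analytic.** -/
theorem analyticOnNhd_of_contDiffOn_one {E : Type*} [NormedAddCommGroup E] [NormedSpace ℂ E]
    [FiniteDimensional ℂ E] {G : Type*} [NormedAddCommGroup G] [NormedSpace ℂ G] [CompleteSpace G]
    {f : E → G} {U : Set E} (hU : IsOpen U) (hf : ContDiffOn ℂ 1 f U) : AnalyticOnNhd ℂ f U :=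
  (holReg_pi (Module.finrank ℂ E)).of_equiv
    (ContinuousLinearEquiv.ofFinrankEq (by simp)) G f U hU hf

end TayReg
end Claimed.Agent.R242
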