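/-
Row 242 (S0480), package TAY (owner helper233): **Osgood's lemma**.
A complex differentiable function on an open subset of a finite dimensional complex normed space is analytic.

Route: `r242_contDiffOn_of_differentiableOn` (helper249, `SCV/MVP.lean`: holomorphic `⇒` real `C^∞`), so the complex derivative is
continuous, so the function is `C¹` over `ℂ`; then `TayReg.analyticOnNhd_of_contDiffOn_one`.
-/
import Claimed.Agent.R242.SCV.MVP
import Claimed.Agent.R242.Tay.HolReg

set_option autoImplicit false

namespace Claimed.Agent.R242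

open Metric Set Filter Topology
open scoped ContDiff

section general

variable {E : Type*} [NormedAddCommGroup E] [NormedSpace ℂ E] [FiniteDimensional ℂ E]

/-- the complex derivative of a holomorphic function is continuous. -/
theorem tay_continuousOn_fderiv {f : E → ℂ} {U : Set E} (hU : IsOpen U)
    (hf : DifferentiableOn ℂ f U) : ContinuousOn (fderiv ℂ f) U := by
  have h1 : ContinuousOn (fderiv ℝ f) U :=
    (r242_contDiffOn_of_differentiableOn hU hf).continuousOn_fderiv_of_isOpen hU (by simp)
  have h2 : ∀ z ∈ U, fderiv ℝ f z = (fderiv ℂ f z).restrictScalars ℝ := fun z hz =>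
    (hf.differentiableAt (hU.mem_nhds hz)).fderiv_restrictScalars ℝ
  have h3 : ContinuousOn (fun z => (fderiv ℂ f z).restrictScalars ℝ) U :=
    h1.congr (fun z hz => (h2 z hz).symm)
  have hi : Isometry (ContinuousLinearMap.restrictScalarsIsometry ℂ E ℂ ℝ ℝ) :=
    (ContinuousLinearMap.restrictScalarsIsometry ℂ E ℂ ℝ ℝ).isometry
  exact (hi.isEmbedding.isInducing.continuousOn_iff).mpr h3

/-- **Osgood**: holomorphic functions of several variables are analytic. -/
theorem tay_osgood {f : E → ℂ} {U : Set E} (hU : IsOpen U) (hf : DifferentiableOn ℂ f U) :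
    AnalyticOnNhd ℂ f U := by
  refine TayReg.analyticOnNhd_of_contDiffOn_one hU ?_
  have h := (contDiffOn_succ_iff_fderiv_of_isOpen (𝕜 := ℂ) (n := 0) (f := f) hU).mpr
    ⟨hf, by simp, contDiffOn_zero.mpr (tay_continuousOn_fderiv hU hf)⟩
  simpa using h

theorem tay_analyticOnNhd_iff {f : E → ℂ} {U : Set E} (hU : IsOpen U) :
    AnalyticOnNhd ℂ f U ↔ DifferentiableOn ℂ f U :=
  ⟨fun h => h.differentiableOn, tay_osgood hU⟩

theorem tay_analyticAt_of_ball {f : E → ℂ} {a : E} {r : ℝ} (hr : 0 < r)
    (hf : DifferentiableOn ℂ f (ball a r)) : AnalyticAt ℂ f a :=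
  tay_osgood isOpen_ball hf a (mem_ball_self hr)

theorem tay_analyticAt_iff {f : E → ℂ} {a : E} :
    AnalyticAt ℂ f a ↔ ∃ r > 0, DifferentiableOn ℂ f (ball a r) := by
  constructor
  · intro h
    obtain ⟨r, hr, hb⟩ := Metric.eventually_nhds_iff_ball.mp h.eventually_analyticAt
    exact ⟨r, hr, fun z hz => (hb z hz).differentiableAt.differentiableWithinAt⟩
  · rintro ⟨r, hr, h⟩
    exact tay_analyticAt_of_ball hr h

/-- holomorphic functions are `C^∞` over `ℂ`. -/
theorem tay_contDiffOn {f : E → ℂ} {U : Set E} (hU : IsOpen U) (hf : DifferentiableOn ℂ f U)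
    (k : WithTop ℕ∞) : ContDiffOn ℂ k f U :=
  (tay_osgood hU hf).contDiffOn hU.uniqueDiffOn

/-- maps into `ℂ^m`. -/
theorem tay_osgood_pi {m : ℕ} {φ : E → Fin m → ℂ} {U : Set E} (hU : IsOpen U)
    (hφ : DifferentiableOn ℂ φ U) : AnalyticOnNhd ℂ φ U := by
  intro z hz
  rw [analyticAt_pi_iff]
  intro i
  exact tay_osgood hU (differentiableOn_pi.mp hφ i) z hz

end general

end Claimed.Agent.R242
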