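/-
Row 242 (S0480), package TAY.  Tay/Core: THE ANALYTIC CORE, proved outright (helper203).  Mathlib + Tay/Osgood + Tay/Mono.

 (C0) `pd j f` is holomorphic; slices `t ↦ f (Fin.cons t w)`, their iterated derivatives are iterated `pd 0`.
 (C2/C3) `tayc_exists`: a holomorphic function on the polydisc `ball a r` is the sum of ONE power series on the WHOLE polydisc, with Cauchy estimates
      `‖c_γ‖ ≤ M / ρ^|γ|` whenever `‖f‖ ≤ M` on `ball a ρ`, `ρ ≤ r`.   Induction on `n` (split off the variable `0`).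
 (C1) `tayc_unique`: uniqueness of the Taylor series.
-/
import Claimed.Agent.R242.Tay.Osgood
import Claimed.Agent.R242.Tay.Mono

set_option autoImplicit false

namespace Claimed.Agent.R242

open Metric Set Filter Topology

variable {n : ℕ}

/-! ### (C0) slices -/

theorem tayc_cons_mem_ball {a : Cn (n + 1)} {r : ℝ} (hr : 0 < r) {t : ℂ} {w : Cn n} :
    (Fin.cons t w : Cn (n + 1)) ∈ ball a r ↔ t ∈ ball (a 0) r ∧ w ∈ ball (Fin.tail a) r := by
  rw [mem_ball, mem_ball, mem_ball, dist_pi_lt_iff hr, dist_pi_lt_iff hr, Fin.forall_fin_succ]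
  rfl

theorem tayc_differentiable_cons (t : ℂ) : Differentiable ℂ (fun w : Cn n => (Fin.cons t w : Cn (n + 1))) := by
  rw [differentiable_pi]
  intro i
  refine Fin.cases ?_ (fun j => ?_) i
  · simp
  · simpa using differentiable_apply j

theorem tayc_pd_differentiableOn {U : Set (Cn n)} (hU : IsOpen U) {f : Cn n → ℂ}
    (hf : DifferentiableOn ℂ f U) (j : Fin n) : DifferentiableOn ℂ (pd j f) U :=
  ((tay_osgood hU hf).fderiv.differentiableOn).clm_apply (differentiableOn_const _)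

theorem tayc_iter_pd_differentiableOn {U : Set (Cn n)} (hU : IsOpen U) {f : Cn n → ℂ}
    (hf : DifferentiableOn ℂ f U) (j : Fin n) (k : ℕ) : DifferentiableOn ℂ ((pd j)^[k] f) U := by
  induction k with
  | zero => exact hf
  | succ k ih =>
    rw [Function.iterate_succ_apply']
    exact tayc_pd_differentiableOn hU ih j

theorem tayc_hasDerivAt_slice {f : Cn (n + 1) → ℂ} {t : ℂ} {w : Cn n}
    (hf : DifferentiableAt ℂ f (Fin.cons t w)) :
    HasDerivAt (fun s : ℂ => f (Fin.cons s w)) (pd 0 f (Fin.cons t w)) t := by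
  have h1 : HasDerivAt (Function.update (Fin.cons 0 w : Cn (n + 1)) 0) (Pi.single 0 1) t :=
    hasDerivAt_update _ _ _
  have e : (Function.update (Fin.cons 0 w : Cn (n + 1)) 0) = fun s : ℂ => (Fin.cons s w : Cn (n + 1)) := by
    funext s
    exact Fin.update_cons_zero _ _ _
  rw [e] at h1
  exact hf.hasFDerivAt.comp_hasDerivAt t h1

theorem tayc_iteratedDeriv_slice {f : Cn (n + 1) → ℂ} {a : Cn (n + 1)} {r : ℝ} (hr : 0 < r)
    (hf : DifferentiableOn ℂ f (ball a r)) {w : Cn n} (hw : w ∈ ball (Fin.tail a) r) (k : ℕ) :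
    ∀ t ∈ ball (a 0) r,
      iteratedDeriv k (fun s : ℂ => f (Fin.cons s w)) t = ((pd 0)^[k] f) (Fin.cons t w) := by
  induction k with
  | zero => intro t _; simp
  | succ k ih =>
    intro t ht
    rw [iteratedDeriv_succ, Function.iterate_succ_apply']
    have h1 : iteratedDeriv k (fun s : ℂ => f (Fin.cons s w)) =ᶠ[𝓝 t]
        fun s => ((pd 0)^[k] f) (Fin.cons s w) :=
      Filter.eventuallyEq_of_mem (isOpen_ball.mem_nhds ht) ih
    rw [h1.deriv_eq]
    have h2 : DifferentiableAt ℂ ((pd 0)^[k] f) (Fin.cons t w) :=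
      (tayc_iter_pd_differentiableOn isOpen_ball hf 0 k).differentiableAt
        (isOpen_ball.mem_nhds ((tayc_cons_mem_ball hr).2 ⟨ht, hw⟩))
    exact (tayc_hasDerivAt_slice h2).deriv

theorem tayc_slice_differentiableOn {f : Cn (n + 1) → ℂ} {a : Cn (n + 1)} {r : ℝ} (hr : 0 < r)
    (hf : DifferentiableOn ℂ f (ball a r)) {w : Cn n} (hw : w ∈ ball (Fin.tail a) r) :
    DifferentiableOn ℂ (fun s : ℂ => f (Fin.cons s w)) (ball (a 0) r) := by
  intro t ht
  have h2 : DifferentiableAt ℂ f (Fin.cons t w) :=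
    hf.differentiableAt (isOpen_ball.mem_nhds ((tayc_cons_mem_ball hr).2 ⟨ht, hw⟩))
  exact (tayc_hasDerivAt_slice h2).differentiableAt.differentiableWithinAt

/-- one variable Cauchy estimate on an o-p-e-n disc. -/
theorem tayc_cauchy_one {φ : ℂ → ℂ} {c : ℂ} {ρ M : ℝ} (hρ : 0 < ρ)
    (hφ : DifferentiableOn ℂ φ (ball c ρ)) (hM : ∀ t ∈ ball c ρ, ‖φ t‖ ≤ M) (k : ℕ) :
    ‖((k.factorial : ℂ))⁻¹ * iteratedDeriv k φ c‖ ≤ M / ρ ^ k := by
  set x := ‖((k.factorial : ℂ))⁻¹ * iteratedDeriv k φ c‖ with hx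
  rw [le_div_iff₀ (pow_pos hρ k)]
  have hs : ∀ s ∈ Ioo 0 ρ, x * s ^ k ≤ M := by
    intro s hs
    have hsub : closedBall c s ⊆ ball c ρ := closedBall_subset_ball hs.2
    have h1 : DiffContOnCl ℂ φ (ball c s) :=
      (hφ.mono hsub).diffContOnCl_ball subset_rfl
    have h2 := Complex.norm_iteratedDeriv_le_of_forall_mem_sphere_norm_le k hs.1 h1
      (fun z hz => hM z (hsub (sphere_subset_closedBall hz)))
    have hk : (0 : ℝ) < k.factorial := by exact_mod_cast k.factorial_pos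
    rw [hx, norm_mul, norm_inv, Complex.norm_natCast]
    rw [← le_div_iff₀ (pow_pos hs.1 k), inv_mul_le_iff₀ hk]
    calc ‖iteratedDeriv k φ c‖ ≤ k.factorial * M / s ^ k := h2
      _ = k.factorial * (M / s ^ k) := by ring
  have ht : Tendsto (fun s : ℝ => x * s ^ k) (𝓝[<] ρ) (𝓝 (x * ρ ^ k)) := by
    have : Continuous (fun s : ℝ => x * s ^ k) := by fun_prop
    exact (this.tendsto ρ).mono_left nhdsWithin_le_nhds
  exact le_of_tendsto ht (Filter.eventually_of_mem (Ioo_mem_nhdsLT hρ) hs)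

/-! ### (C2), (C3) the expansion -/

theorem tayc_sub_cons (z a : Cn (n + 1)) :
    z - a = (Fin.cons (z 0 - a 0) (Fin.tail z - Fin.tail a) : Cn (n + 1)) := by
  funext i
  refine Fin.cases ?_ (fun j => ?_) i
  · simp
  · simp [Fin.tail]

/-- a holomorphic function is bounded on a smaller polydisc. -/
theorem tayc_bounded {f : Cn n → ℂ} {a : Cn n} {r ρ : ℝ} (hf : DifferentiableOn ℂ f (ball a r))
    (hρ : ρ < r) : ∃ M : ℝ, ∀ z ∈ ball a ρ, ‖f z‖ ≤ M := by
  have hc : ContinuousOn f (closedBall a ρ) := hf.continuousOn.mono (closedBall_subset_ball hρ)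
  obtain ⟨M, hM⟩ := (isCompact_closedBall a ρ).exists_bound_of_continuousOn hc
  exact ⟨M, fun z hz => hM z (ball_subset_closedBall hz)⟩

/-- **Taylor expansion on a polydisc with Cauchy estimates** (bounds on o-p-e-n polydiscs). -/
theorem tayc_exists (n : ℕ) : ∀ (f : Cn n → ℂ) (a : Cn n) (r : ℝ), 0 < r →
    DifferentiableOn ℂ f (ball a r) →
    ∃ F : MvPowerSeries (Fin n) ℂ,
      (∀ z ∈ ball a r,
        HasSum (fun g : Fin n →₀ ℕ => MvPowerSeries.coeff g F * tayMono g (z - a)) (f z)) ∧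
      (∀ ρ M : ℝ, 0 < ρ → ρ ≤ r → (∀ z ∈ ball a ρ, ‖f z‖ ≤ M) →
        ∀ g : Fin n →₀ ℕ, ‖MvPowerSeries.coeff g F‖ ≤ M / ρ ^ g.degree) := by
  induction n with
  | zero =>
    intro f a r hr _
    refine ⟨MvPowerSeries.C (f a), fun z _ => ?_, fun ρ M hρ _ hM g => ?_⟩
    · have hz : z = a := Subsingleton.elim _ _
      have h := hasSum_unique (fun g : Fin 0 →₀ ℕ =>
        MvPowerSeries.coeff g (MvPowerSeries.C (f a) : MvPowerSeries (Fin 0) ℂ) * tayMono g (z - a))
      have e : (default : Fin 0 →₀ ℕ) = 0 := Subsingleton.elim _ _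
      rw [e] at h
      simpa [tayMono_zero, hz] using h
    · have e : g = 0 := Subsingleton.elim _ _
      subst e
      simpa using hM a (mem_ball_self hρ)
  | succ n ih =>
    intro f a r hr hf
    classical
    set a₀ : ℂ := a 0 with ha₀
    set a' : Cn n := Fin.tail a with ha'
    -- the coefficient functions
    set b : ℕ → Cn n → ℂ := fun k w => ((k.factorial : ℂ))⁻¹ * ((pd 0)^[k] f) (Fin.cons a₀ w) with hb
    have hmaps : ∀ w ∈ ball a' r, (Fin.cons a₀ w : Cn (n + 1)) ∈ ball a r := fun w hw =>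
      (tayc_cons_mem_ball hr).2 ⟨mem_ball_self hr, hw⟩
    have hbd : ∀ k, DifferentiableOn ℂ (b k) (ball a' r) := by
      intro k
      refine DifferentiableOn.const_mul ?_ _
      exact (tayc_iter_pd_differentiableOn isOpen_ball hf 0 k).comp
        (tayc_differentiable_cons a₀).differentiableOn hmaps
    have hbk : ∀ k, ∀ w ∈ ball a' r,
        b k w = ((k.factorial : ℂ))⁻¹ * iteratedDeriv k (fun s : ℂ => f (Fin.cons s w)) a₀ := by
      intro k w hw
      rw [tayc_iteratedDeriv_slice hr hf hw k a₀ (mem_ball_self hr)]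
    choose G hG1 hG2 using fun k => ih (b k) a' r hr (hbd k)
    set F : MvPowerSeries (Fin (n + 1)) ℂ :=
      fun γ => MvPowerSeries.coeff (Finsupp.tail γ) (G (γ 0)) with hF
    have hFc : ∀ γ, MvPowerSeries.coeff γ F = MvPowerSeries.coeff (Finsupp.tail γ) (G (γ 0)) :=
      fun γ => rfl
    -- Cauchy estimates
    have hcauchy : ∀ ρ M : ℝ, 0 < ρ → ρ ≤ r → (∀ z ∈ ball a ρ, ‖f z‖ ≤ M) →
        ∀ g : Fin (n + 1) →₀ ℕ, ‖MvPowerSeries.coeff g F‖ ≤ M / ρ ^ g.degree := by
      intro ρ M hρ hρr hM g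
      have h1 : ∀ w ∈ ball a' ρ, ‖b (g 0) w‖ ≤ M / ρ ^ (g 0) := by
        intro w hw
        have hw' : w ∈ ball a' r := ball_subset_ball hρr hw
        rw [hbk _ w hw']
        refine tayc_cauchy_one hρ ((tayc_slice_differentiableOn hr hf hw').mono (ball_subset_ball hρr))
          (fun t ht => hM _ ((tayc_cons_mem_ball hρ).2 ⟨ht, hw⟩)) _
      have h2 := hG2 (g 0) ρ (M / ρ ^ (g 0)) hρ hρr h1 (Finsupp.tail g)
      rw [hFc]
      refine h2.trans (le_of_eq ?_)
      have e : g.degree = g 0 + (Finsupp.tail g).degree := by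
        conv_lhs => rw [← Finsupp.cons_tail g]
        exact tay_degree_cons _ _
      rw [e, pow_add, div_div]
    refine ⟨F, fun z hz => ?_, hcauchy⟩
    -- the expansion
    set t : ℂ := z 0 with ht
    set w : Cn n := Fin.tail z with hw
    have hzc : z = (Fin.cons t w : Cn (n + 1)) := (Fin.cons_self_tail z).symm
    have hz' : (Fin.cons t w : Cn (n + 1)) ∈ ball a r := hzc ▸ hz
    obtain ⟨htb, hwb⟩ := (tayc_cons_mem_ball hr).1 hz'
    have hdist : ‖z - a‖ < r := by rwa [← dist_eq_norm, ← mem_ball]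
    obtain ⟨ρ, hρ1, hρ2⟩ := exists_between hdist
    have hρ : 0 < ρ := lt_of_le_of_lt (norm_nonneg _) hρ1
    obtain ⟨M, hM⟩ := tayc_bounded hf hρ2
    have hM0 : 0 ≤ M := (norm_nonneg _).trans (hM a (mem_ball_self hρ))
    have hx1 : ‖z - a‖ / ρ < 1 := (div_lt_one hρ).2 hρ1
    have hx0 : 0 ≤ ‖z - a‖ / ρ := div_nonneg (norm_nonneg _) hρ.le
    have hsum : Summable (fun g : Fin (n + 1) →₀ ℕ => MvPowerSeries.coeff g F * tayMono g (z - a)) := by
      refine Summable.of_norm_bounded ((tay_summable_geom (n := n + 1) hx0 hx1).mul_left M) (fun g => ?_)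
      rw [norm_mul]
      calc ‖MvPowerSeries.coeff g F‖ * ‖tayMono g (z - a)‖
          ≤ (M / ρ ^ g.degree) * ‖z - a‖ ^ g.degree :=
            mul_le_mul (hcauchy ρ M hρ hρ2.le hM g) (norm_tayMono_le_norm g _) (norm_nonneg _)
              (div_nonneg hM0 (pow_nonneg hρ.le _))
        _ = M * (‖z - a‖ / ρ) ^ g.degree := by rw [div_pow]; ring
    have hS := hsum.hasSum
    rw [← (tayConsEquiv n).hasSum_iff] at hS
    have hfib : ∀ k : ℕ, HasSum (fun γ : Fin n →₀ ℕ =>
        ((fun g : Fin (n + 1) →₀ ℕ => MvPowerSeries.coeff g F * tayMono g (z - a)) ∘ (tayConsEquiv n)) (k, γ))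
        ((t - a₀) ^ k * b k w) := by
      intro k
      have h := (hG1 k w hwb).mul_left ((t - a₀) ^ k)
      have e : (fun γ : Fin n →₀ ℕ =>
          ((fun g : Fin (n + 1) →₀ ℕ => MvPowerSeries.coeff g F * tayMono g (z - a)) ∘ (tayConsEquiv n)) (k, γ)) =
          fun γ => (t - a₀) ^ k * (MvPowerSeries.coeff γ (G k) * tayMono γ (w - a')) := by
        funext γ
        show MvPowerSeries.coeff (Finsupp.cons k γ) F * tayMono (Finsupp.cons k γ) (z - a) = _
        rw [hFc, Finsupp.tail_cons, Finsupp.cons_zero, tayc_sub_cons, tayMono_cons]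
        ring
      rw [e]
      exact h
    have h1 := hS.prod_fiberwise hfib
    have h2 := Complex.hasSum_taylorSeries_on_ball (tayc_slice_differentiableOn hr hf hwb) htb
    have h3 : HasSum (fun k : ℕ => (t - a₀) ^ k * b k w) (f z) := by
      have e : (fun k : ℕ => (t - a₀) ^ k * b k w) = fun k : ℕ => ((k.factorial : ℂ))⁻¹ •
          (t - a₀) ^ k • iteratedDeriv k (fun s : ℂ => f (Fin.cons s w)) a₀ := by
        funext k
        rw [hbk k w hwb, smul_eq_mul, smul_eq_mul]
        ring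
      rw [e, hzc]
      exact h2
    rw [← h1.unique h3]
    exact hsum.hasSum

end Claimed.Agent.R242
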