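/-
Row 242 (S0480), package TAY (owner helper233), LEAVES TAY-Series-A (sections `conv`, `alg`) and TAY-Series-B (section `deriv`).
Mathlib only, no paper.

Convergent power series in `n` variables on the polydisc `ball 0 r ⊆ Cn n` (sup norm).
`TayConv F r` : `∑ ‖c_γ‖ ρ^{|γ|} < ∞` for all `0 ≤ ρ < r`;  `tayEval F z = ∑' c_γ z^γ`.

ROUTES.
* `TayConv.summable_norm`: compare with `ρ = ‖z‖` (`norm_tayMono_le_norm`).
* `tayConv_of_summable`: evaluate at the point `z = fun _ => ρ'` (`tayMono_const`; `‖z‖ ≤ ρ'` by `pi_norm_le_iff_of_nonneg`), `Summable.norm`.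
* `tayConv_of_bound`: `ρ < ρ' := (ρ + r)/2 < r`, `‖c_γ‖ ρ^k = ‖c_γ‖ ρ'^k (ρ/ρ')^k ≤ M (ρ/ρ')^k`, `tay_summable_geom`.
* `TayConv.mul`, `tayEval_mul`: `MvPowerSeries.coeff_mul`, `Summable.mul_of_nonneg`, `summable_sum_mul_antidiagonal_of_summable_mul`,
  `Summable.tsum_mul_tsum_eq_tsum_sum_antidiagonal` (these hold for every `HasAntidiagonal` index type), `summable_mul_of_summable_norm`,
  `tayMono_add`, `map_add` for `Finsupp.degree`.
* `TayConv.pderiv`: `MvPowerSeries.coeff_pderiv`; `(γ_j + 1) ρ^{|γ|} ≤ (|γ|+1) ρ^{|γ|} ≤ C ρ'^{|γ|+1}` (`tay_pow_bound`), reindex by the injective map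
  `γ ↦ γ + single j 1` (`Summable.comp_injective`).
* `TayConv.hasFDerivAt_eval`: `hasFDerivAt_tsum_of_isPreconnected` on `s = ball 0 ρ` (convex), `u γ = ‖c_γ‖ |γ| ρ^{|γ|-1}`
  (`norm_fderiv_tayMono_le`, `tay_pow_bound`).  Then `pd j` of the sum = sum of `pd j` (`ContinuousLinearMap.hasSum` / `tsum` commutes with
  evaluation at a vector), `pd_tayMono`, reindex (terms with `γ_j = 0` vanish).
* `tay_series_unique`: induction on `|γ|`, for all `F`: `c_0 = tayEval F 0`; `γ = δ + single j 1`: apply the induction hypothesis to `pderiv j F`,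
  whose evaluation is `pd j (tayEval F) = pd j 0 = 0` on the ball (`Filter.EventuallyEq.fderiv_eq`).
-/
import Claimed.Agent.R242.Tay.Mono

set_option autoImplicit false

namespace Claimed.Agent.R242

open Metric Set Filter Topology

variable {n : ℕ}

/-- absolute convergence on the open polydisc of radius `r`. -/
def TayConv (F : MvPowerSeries (Fin n) ℂ) (r : ℝ) : Prop :=
  ∀ ρ : ℝ, 0 ≤ ρ → ρ < r →
    Summable (fun γ : Fin n →₀ ℕ => ‖MvPowerSeries.coeff γ F‖ * ρ ^ γ.degree)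

/-- the sum of the series. -/
noncomputable def tayEval (F : MvPowerSeries (Fin n) ℂ) (z : Cn n) : ℂ :=
  ∑' γ : Fin n →₀ ℕ, MvPowerSeries.coeff γ F * tayMono γ z

section conv

variable {F G : MvPowerSeries (Fin n) ℂ} {r r' : ℝ} {z : Cn n}

theorem TayConv.mono (h : TayConv F r) (hr : r' ≤ r) : TayConv F r' :=
  fun ρ h0 h1 => h ρ h0 (h1.trans_le hr)

theorem TayConv.summable_norm (h : TayConv F r) (hz : ‖z‖ < r) :
    Summable (fun γ : Fin n →₀ ℕ => ‖MvPowerSeries.coeff γ F * tayMono γ z‖) := by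
  refine Summable.of_nonneg_of_le (fun γ => norm_nonneg _) (fun γ => ?_) (h ‖z‖ (norm_nonneg z) hz)
  rw [norm_mul]
  exact mul_le_mul_of_nonneg_left (norm_tayMono_le_norm γ z) (norm_nonneg _)

theorem TayConv.hasSum (h : TayConv F r) (hz : ‖z‖ < r) :
    HasSum (fun γ : Fin n →₀ ℕ => MvPowerSeries.coeff γ F * tayMono γ z) (tayEval F z) :=
  (h.summable_norm hz).of_norm.hasSum

theorem tayConv_of_summable
    (h : ∀ z ∈ ball (0 : Cn n) r,
      Summable (fun γ : Fin n →₀ ℕ => MvPowerSeries.coeff γ F * tayMono γ z)) : TayConv F r := by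
  intro ρ h0 h1
  have hz : (fun _ => (ρ : ℂ) : Cn n) ∈ ball (0 : Cn n) r := by
    rw [mem_ball_zero_iff]
    refine lt_of_le_of_lt ?_ h1
    rw [pi_norm_le_iff_of_nonneg h0]
    intro i
    simp [abs_of_nonneg h0]
  have h2 := (h _ hz).norm
  refine h2.congr fun γ => ?_
  rw [norm_mul, tayMono_const, norm_pow, Complex.norm_real, Real.norm_of_nonneg h0]

theorem tayConv_of_bound
    (h : ∀ ρ : ℝ, 0 ≤ ρ → ρ < r → ∃ M : ℝ, ∀ γ : Fin n →₀ ℕ,
      ‖MvPowerSeries.coeff γ F‖ * ρ ^ γ.degree ≤ M) : TayConv F r := by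
  intro ρ h0 h1
  have h2 : ρ < (ρ + r) / 2 := by linarith
  have h3 : (ρ + r) / 2 < r := by linarith
  have h4 : 0 < (ρ + r) / 2 := lt_of_le_of_lt h0 h2
  obtain ⟨M, hM⟩ := h ((ρ + r) / 2) h4.le h3
  have hq0 : 0 ≤ ρ / ((ρ + r) / 2) := div_nonneg h0 h4.le
  have hq1 : ρ / ((ρ + r) / 2) < 1 := (div_lt_one h4).2 h2
  refine Summable.of_nonneg_of_le (fun γ => by positivity) (fun γ => ?_)
    ((tay_summable_geom (n := n) hq0 hq1).mul_left M)
  have h5 : ρ ^ γ.degree = ((ρ + r) / 2) ^ γ.degree * (ρ / ((ρ + r) / 2)) ^ γ.degree := by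
    rw [← mul_pow, mul_div_cancel₀ _ h4.ne']
  rw [h5, ← mul_assoc]
  exact mul_le_mul_of_nonneg_right (hM γ) (pow_nonneg hq0 _)

theorem TayConv.norm_eval_le (h : TayConv F r) {ρ : ℝ} (hρ : ρ < r) (hz : ‖z‖ ≤ ρ) :
    ‖tayEval F z‖ ≤ ∑' γ : Fin n →₀ ℕ, ‖MvPowerSeries.coeff γ F‖ * ρ ^ γ.degree := by
  have h0 : 0 ≤ ρ := (norm_nonneg z).trans hz
  have h1 := h.summable_norm (hz.trans_lt hρ)
  refine (norm_tsum_le_tsum_norm h1).trans ?_
  refine h1.tsum_le_tsum (fun γ => ?_) (h ρ h0 hρ)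
  rw [norm_mul]
  exact mul_le_mul_of_nonneg_left
    (norm_tayMono_le γ fun i => (norm_le_pi_norm z i).trans hz) (norm_nonneg _)

theorem tayEval_at_zero (F : MvPowerSeries (Fin n) ℂ) :
    tayEval F 0 = MvPowerSeries.coeff 0 F := by
  unfold tayEval
  rw [tsum_eq_single 0]
  · rw [tayMono_zero, mul_one]
  · intro γ hγ
    rw [tayMono_at_zero, if_neg hγ, mul_zero]

end conv

section alg

variable {F G : MvPowerSeries (Fin n) ℂ} {r : ℝ} {z : Cn n}

/-- polynomials converge everywhere. -/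
theorem tayConv_of_finite (h : {γ | MvPowerSeries.coeff γ F ≠ 0}.Finite) (r : ℝ) :
    TayConv F r := by
  intro ρ _ _
  refine summable_of_hasFiniteSupport (h.subset fun γ hγ => ?_)
  intro h0
  apply hγ
  simp [h0]

theorem tayConv_monomial (γ : Fin n →₀ ℕ) (c : ℂ) (r : ℝ) :
    TayConv (MvPowerSeries.monomial γ c : MvPowerSeries (Fin n) ℂ) r := by
  classical
  refine tayConv_of_finite ((Set.finite_singleton γ).subset fun δ hδ => ?_) r
  by_contra hne
  apply hδ
  rw [MvPowerSeries.coeff_monomial, if_neg (fun h => hne (Set.mem_singleton_iff.2 h))]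

theorem tayConv_C (c : ℂ) (r : ℝ) : TayConv (MvPowerSeries.C c : MvPowerSeries (Fin n) ℂ) r :=
  tayConv_monomial 0 c r

theorem tayConv_X (j : Fin n) (r : ℝ) : TayConv (MvPowerSeries.X j : MvPowerSeries (Fin n) ℂ) r :=
  tayConv_monomial (Finsupp.single j 1) 1 r

theorem TayConv.add (hF : TayConv F r) (hG : TayConv G r) : TayConv (F + G) r := by
  intro ρ h0 h1
  refine Summable.of_nonneg_of_le (fun γ => by positivity) (fun γ => ?_)
    ((hF ρ h0 h1).add (hG ρ h0 h1))
  rw [map_add, ← add_mul]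
  exact mul_le_mul_of_nonneg_right (norm_add_le _ _) (pow_nonneg h0 _)

theorem TayConv.neg (hF : TayConv F r) : TayConv (-F) r := by
  intro ρ h0 h1
  refine (hF ρ h0 h1).congr fun γ => ?_
  rw [map_neg, norm_neg]

theorem TayConv.sub (hF : TayConv F r) (hG : TayConv G r) : TayConv (F - G) r := by
  rw [sub_eq_add_neg]
  exact hF.add hG.neg

theorem TayConv.smul (hF : TayConv F r) (c : ℂ) : TayConv (c • F) r := by
  intro ρ h0 h1
  refine ((hF ρ h0 h1).mul_left ‖c‖).congr fun γ => ?_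
  rw [MvPowerSeries.coeff_smul, norm_mul, mul_assoc]

theorem TayConv.mul (hF : TayConv F r) (hG : TayConv G r) : TayConv (F * G) r := by
  intro ρ h0 h1
  have hf := hF ρ h0 h1
  have hg := hG ρ h0 h1
  have hfg := Summable.mul_of_nonneg hf hg (fun γ => by positivity) (fun γ => by positivity)
  have h2 := summable_sum_mul_antidiagonal_of_summable_mul
    (f := fun γ : Fin n →₀ ℕ => ‖MvPowerSeries.coeff γ F‖ * ρ ^ γ.degree)
    (g := fun γ : Fin n →₀ ℕ => ‖MvPowerSeries.coeff γ G‖ * ρ ^ γ.degree) hfg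
  refine Summable.of_nonneg_of_le (fun γ => by positivity) (fun γ => ?_) h2
  rw [MvPowerSeries.coeff_mul]
  refine (mul_le_mul_of_nonneg_right (norm_sum_le _ _) (pow_nonneg h0 _)).trans ?_
  rw [Finset.sum_mul]
  refine Finset.sum_le_sum fun p hp => ?_
  have hp' : p.1 + p.2 = γ := Finset.HasAntidiagonal.mem_antidiagonal.1 hp
  rw [← hp', map_add, pow_add, norm_mul]
  exact le_of_eq (by ring)

theorem tayEval_monomial (γ : Fin n →₀ ℕ) (c : ℂ) (z : Cn n) :
    tayEval (MvPowerSeries.monomial γ c) z = c * tayMono γ z := by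
  classical
  unfold tayEval
  rw [tsum_eq_single γ]
  · rw [MvPowerSeries.coeff_monomial_same]
  · intro δ hδ
    rw [MvPowerSeries.coeff_monomial, if_neg hδ, zero_mul]

theorem tayEval_C (c : ℂ) (z : Cn n) : tayEval (MvPowerSeries.C c) z = c := by
  have := tayEval_monomial 0 c z
  rw [tayMono_zero, mul_one] at this
  exact this

theorem tayEval_X (j : Fin n) (z : Cn n) : tayEval (MvPowerSeries.X j) z = z j := by
  have := tayEval_monomial (Finsupp.single j 1) 1 z
  rw [tayMono_single, one_mul, pow_one] at this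
  exact this

theorem tayEval_add (hF : TayConv F r) (hG : TayConv G r) (hz : ‖z‖ < r) :
    tayEval (F + G) z = tayEval F z + tayEval G z := by
  have h1 := (hF.hasSum hz).add (hG.hasSum hz)
  rw [← h1.tsum_eq]
  unfold tayEval
  refine tsum_congr fun γ => ?_
  rw [map_add, add_mul]

theorem tayEval_neg (F : MvPowerSeries (Fin n) ℂ) (z : Cn n) : tayEval (-F) z = -tayEval F z := by
  unfold tayEval
  rw [← tsum_neg]
  refine tsum_congr fun γ => ?_
  rw [map_neg, neg_mul]

theorem tayEval_sub (hF : TayConv F r) (hG : TayConv G r) (hz : ‖z‖ < r) :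
    tayEval (F - G) z = tayEval F z - tayEval G z := by
  rw [sub_eq_add_neg, tayEval_add hF hG.neg hz, tayEval_neg, sub_eq_add_neg]

theorem tayEval_smul (c : ℂ) (F : MvPowerSeries (Fin n) ℂ) (z : Cn n) :
    tayEval (c • F) z = c * tayEval F z := by
  unfold tayEval
  rw [← tsum_mul_left]
  refine tsum_congr fun γ => ?_
  rw [MvPowerSeries.coeff_smul, mul_assoc]

theorem tayEval_mul (hF : TayConv F r) (hG : TayConv G r) (hz : ‖z‖ < r) :
    tayEval (F * G) z = tayEval F z * tayEval G z := by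
  classical
  have hf := hF.summable_norm hz
  have hg := hG.summable_norm hz
  have hfg := summable_mul_of_summable_norm hf hg
  unfold tayEval
  rw [hf.of_norm.tsum_mul_tsum_eq_tsum_sum_antidiagonal hg.of_norm hfg]
  refine tsum_congr fun γ => ?_
  rw [MvPowerSeries.coeff_mul, Finset.sum_mul]
  refine Finset.sum_congr rfl fun p hp => ?_
  rw [← Finset.HasAntidiagonal.mem_antidiagonal.1 hp, tayMono_add]
  ring

end alg

section deriv

variable {F : MvPowerSeries (Fin n) ℂ} {r : ℝ} {z : Cn n}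

theorem TayConv.pderiv (h : TayConv F r) (j : Fin n) :
    TayConv (MvPowerSeries.pderiv ℂ j F) r := by
  intro ρ h0 h1
  have h2 : ρ < (ρ + r) / 2 := by linarith
  have h3 : (ρ + r) / 2 < r := by linarith
  have h4 : 0 < (ρ + r) / 2 := lt_of_le_of_lt h0 h2
  obtain ⟨C, hC0, hC⟩ := tay_pow_bound h0 h2
  have h5 := ((h _ h4.le h3).comp_injective (add_left_injective (Finsupp.single j 1))).mul_left C
  refine Summable.of_nonneg_of_le (fun γ => by positivity) (fun γ => ?_) h5
  have h6 := hC (γ.degree + 1)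
  rw [Nat.add_sub_cancel] at h6
  have h7 : ((γ j : ℝ) + 1) ≤ ((γ.degree + 1 : ℕ) : ℝ) := by
    push_cast
    have : (γ j : ℝ) ≤ (γ.degree : ℝ) := by exact_mod_cast Finsupp.le_degree j γ
    linarith
  have h8 : ‖((γ j : ℂ) + 1)‖ = (γ j : ℝ) + 1 := by
    have : ((γ j : ℂ) + 1) = ((γ j + 1 : ℕ) : ℂ) := by push_cast; ring
    rw [this, Complex.norm_natCast]
    push_cast
    ring
  simp only [Function.comp_apply]
  rw [MvPowerSeries.coeff_pderiv, norm_mul, h8, map_add, Finsupp.degree_single]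
  calc ‖MvPowerSeries.coeff (γ + Finsupp.single j 1) F‖ * ((γ j : ℝ) + 1) * ρ ^ γ.degree
      = ‖MvPowerSeries.coeff (γ + Finsupp.single j 1) F‖ * (((γ j : ℝ) + 1) * ρ ^ γ.degree) := by
        ring
    _ ≤ ‖MvPowerSeries.coeff (γ + Finsupp.single j 1) F‖ * (C * ((ρ + r) / 2) ^ (γ.degree + 1)) := by
        refine mul_le_mul_of_nonneg_left ?_ (norm_nonneg _)
        exact (mul_le_mul_of_nonneg_right h7 (pow_nonneg h0 _)).trans h6
    _ = C * (‖MvPowerSeries.coeff (γ + Finsupp.single j 1) F‖ * ((ρ + r) / 2) ^ (γ.degree + 1)) := by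
        ring

/-- the majorant of the series of derivatives. -/
theorem TayConv.summable_deriv_aux (h : TayConv F r) {ρ : ℝ} (h0 : 0 ≤ ρ) (h1 : ρ < r) :
    Summable (fun γ : Fin n →₀ ℕ =>
      ‖MvPowerSeries.coeff γ F‖ * ((γ.degree : ℝ) * ρ ^ (γ.degree - 1))) := by
  have h2 : ρ < (ρ + r) / 2 := by linarith
  have h3 : (ρ + r) / 2 < r := by linarith
  have h4 : 0 < (ρ + r) / 2 := lt_of_le_of_lt h0 h2
  obtain ⟨C, hC0, hC⟩ := tay_pow_bound h0 h2
  refine Summable.of_nonneg_of_le (fun γ => by positivity) (fun γ => ?_)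
    ((h _ h4.le h3).mul_left C)
  calc ‖MvPowerSeries.coeff γ F‖ * ((γ.degree : ℝ) * ρ ^ (γ.degree - 1))
      ≤ ‖MvPowerSeries.coeff γ F‖ * (C * ((ρ + r) / 2) ^ γ.degree) :=
        mul_le_mul_of_nonneg_left (hC _) (norm_nonneg _)
    _ = C * (‖MvPowerSeries.coeff γ F‖ * ((ρ + r) / 2) ^ γ.degree) := by ring

theorem TayConv.norm_deriv_le_aux (F : MvPowerSeries (Fin n) ℂ) {ρ : ℝ} (hz : ‖z‖ ≤ ρ)
    (γ : Fin n →₀ ℕ) :
    ‖MvPowerSeries.coeff γ F • fderiv ℂ (tayMono γ) z‖
      ≤ ‖MvPowerSeries.coeff γ F‖ * ((γ.degree : ℝ) * ρ ^ (γ.degree - 1)) := by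
  rw [norm_smul]
  exact mul_le_mul_of_nonneg_left (norm_fderiv_tayMono_le γ hz) (norm_nonneg _)

theorem TayConv.hasFDerivAt_eval (h : TayConv F r) (hz : ‖z‖ < r) :
    HasFDerivAt (tayEval F)
      (∑' γ : Fin n →₀ ℕ, MvPowerSeries.coeff γ F • fderiv ℂ (tayMono γ) z) z := by
  have h2 : ‖z‖ < (‖z‖ + r) / 2 := by linarith
  have h3 : (‖z‖ + r) / 2 < r := by linarith
  have h4 : 0 < (‖z‖ + r) / 2 := lt_of_le_of_lt (norm_nonneg z) h2
  refine hasFDerivAt_tsum_of_isPreconnected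
    (f := fun (γ : Fin n →₀ ℕ) (y : Cn n) => MvPowerSeries.coeff γ F * tayMono γ y)
    (f' := fun (γ : Fin n →₀ ℕ) (y : Cn n) => MvPowerSeries.coeff γ F • fderiv ℂ (tayMono γ) y)
    (s := ball (0 : Cn n) ((‖z‖ + r) / 2)) (x₀ := 0)
    (h.summable_deriv_aux h4.le h3) isOpen_ball (convex_ball _ _).isPreconnected
    (fun γ y _ => ?_) (fun γ y hy => ?_) (mem_ball_self h4) ?_ (mem_ball_zero_iff.2 h2)
  · exact ((tayMono_differentiable γ y).hasFDerivAt).const_mul _
  · exact TayConv.norm_deriv_le_aux F (mem_ball_zero_iff.1 hy).le γ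
  · exact (h.summable_norm (z := 0) (by rw [norm_zero]; exact h4.trans h3)).of_norm

/-- the sum of a convergent power series is holomorphic. -/
theorem TayConv.differentiableOn (h : TayConv F r) :
    DifferentiableOn ℂ (tayEval F) (ball 0 r) := fun _ hz =>
  (h.hasFDerivAt_eval (mem_ball_zero_iff.1 hz)).differentiableAt.differentiableWithinAt

/-- termwise differentiation. -/
theorem TayConv.pd_eval (h : TayConv F r) (hz : ‖z‖ < r) (j : Fin n) :
    pd j (tayEval F) z = tayEval (MvPowerSeries.pderiv ℂ j F) z := by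
  have hs : Summable (fun γ : Fin n →₀ ℕ => MvPowerSeries.coeff γ F • fderiv ℂ (tayMono γ) z) :=
    Summable.of_norm_bounded (h.summable_deriv_aux (norm_nonneg z) hz)
      (TayConv.norm_deriv_le_aux F le_rfl)
  rw [pd, (h.hasFDerivAt_eval hz).fderiv]
  have h1 := (ContinuousLinearMap.apply ℂ ℂ (Pi.single j 1 : Cn n)).map_tsum hs
  simp only [ContinuousLinearMap.apply_apply] at h1
  rw [h1]
  unfold tayEval
  rw [← (add_left_injective (Finsupp.single j 1)).tsum_eq
    (f := fun γ : Fin n →₀ ℕ =>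
      (MvPowerSeries.coeff γ F • fderiv ℂ (tayMono γ) z) (Pi.single j 1))]
  · refine tsum_congr fun γ => ?_
    have h2 := pd_tayMono j (γ + Finsupp.single j 1) z
    rw [pd] at h2
    rw [smul_apply, h2, MvPowerSeries.coeff_pderiv, add_tsub_cancel_right]
    simp only [Finsupp.add_apply, Finsupp.single_eq_same, smul_eq_mul]
    push_cast
    ring
  · intro γ hγ
    have h2 := pd_tayMono j γ z
    rw [pd] at h2
    rw [Function.mem_support, smul_apply, h2] at hγ
    have h3 : γ j ≠ 0 := by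
      intro h0
      apply hγ
      simp [h0]
    refine ⟨γ - Finsupp.single j 1, ?_⟩
    ext i
    by_cases hij : j = i
    · subst hij
      simp
      omega
    · simp [hij]

theorem tay_series_unique_aux {r : ℝ} (hr : 0 < r) (k : ℕ) :
    ∀ F : MvPowerSeries (Fin n) ℂ, TayConv F r →
      (∀ z ∈ ball (0 : Cn n) r, tayEval F z = 0) →
      ∀ γ : Fin n →₀ ℕ, γ.degree = k → MvPowerSeries.coeff γ F = 0 := by
  induction k with
  | zero =>
    intro F _ h0 γ hγ
    rw [(Finsupp.degree_eq_zero_iff γ).1 hγ, ← tayEval_at_zero]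
    exact h0 0 (mem_ball_self hr)
  | succ k ih =>
    intro F h h0 γ hγ
    obtain ⟨j, hj⟩ : ∃ j, γ j ≠ 0 := by
      by_contra hc
      push Not at hc
      have : γ = 0 := Finsupp.ext hc
      rw [this] at hγ
      simp at hγ
    have h4 : γ = (γ - Finsupp.single j 1) + Finsupp.single j 1 := by
      ext i
      by_cases hij : j = i
      · subst hij
        simp
        omega
      · simp [hij]
    have h5 : (γ - Finsupp.single j 1).degree = k := by
      have := hγ
      rw [h4, map_add, Finsupp.degree_single] at this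
      omega
    have h6 : ∀ z ∈ ball (0 : Cn n) r, tayEval (MvPowerSeries.pderiv ℂ j F) z = 0 := by
      intro z hz
      rw [← h.pd_eval (mem_ball_zero_iff.1 hz) j, pd]
      have h7 : tayEval F =ᶠ[𝓝 z] fun _ => (0 : ℂ) := by
        filter_upwards [isOpen_ball.mem_nhds hz] with y hy using h0 y hy
      rw [h7.fderiv_eq]
      simp
    have h8 := ih _ (h.pderiv j) h6 _ h5
    rw [MvPowerSeries.coeff_pderiv, ← h4] at h8
    rcases mul_eq_zero.1 h8 with h9 | h9
    · exact h9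
    · exfalso
      exact Nat.cast_add_one_ne_zero _ h9

/-- **uniqueness of the coefficients.** -/
theorem tay_series_unique (h : TayConv F r) (hr : 0 < r)
    (h0 : ∀ z ∈ ball (0 : Cn n) r, tayEval F z = 0) : F = 0 := by
  ext γ
  rw [tay_series_unique_aux hr _ F h h0 γ rfl, map_zero]

end deriv

end Claimed.Agent.R242
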