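/-
Row 242 (S0480), package TAY (owner helper233), LEAF TAY-Exist.  No paper.

**Existence of the Taylor expansion on the whole polydisc, with Cauchy estimates.**

ROUTE: induction on `n` (statement for all `f, a, r`).
* `n = 0`: `Cn 0` and `Fin 0 →₀ ℕ` are subsingletons/unique: `F = C (f a)`, `hasSum_unique`-type.
* `n + 1`: `r ≤ 0` is trivial.  `g_k := (pd 0)^[k] f`, holomorphic on `ball a r` (`tay_pd_differentiableOn`).  For `z' : Cn n` put
  `f_k z' := g_k (Fin.cons (a 0) z') / k!`, holomorphic on `ball (Fin.tail a) r`.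
  (1) one variable: `t ↦ f (Fin.cons t z')` is holomorphic on `ball (a 0) r`, its `k`-th derivative is `t ↦ g_k (Fin.cons t z')`
      (`tay_iteratedDeriv_cons`), so `Complex.hasSum_taylorSeries_on_ball` gives `f (cons t z') = ∑_k (t - a 0)^k f_k z'`, and
      `Complex.norm_iteratedDeriv_le_of_forall_mem_sphere_norm_le` gives `‖f_k z'‖ ρ^k ≤ M` for `z' ∈ closedBall (tail a) ρ`.
  (2) induction hypothesis for every `f_k`: series `F_k`.  Define `coeff γ F := coeff (Finsupp.tail γ) (F_{γ 0})`.
  (3) Cauchy estimate: `‖coeff γ' F_k‖ ρ^{|γ'|} ≤ M / ρ^k` (case `ρ = 0` separately).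
  (4) summability over `ℕ × (Fin n →₀ ℕ)` from (3) with `ρ' ∈ (‖z - a‖, r)` and `tay_summable_geom` in `n + 1` variables
      (transport with `tayConsEquiv`), then `HasSum.prod_fiberwise` + uniqueness of sums, `tayMono_cons`, `tay_degree_cons`.
-/
import Claimed.Agent.R242.Tay.Osgood
import Claimed.Agent.R242.Tay.Series
import Claimed.Agent.R242.Tay.Core

set_option autoImplicit false

namespace Claimed.Agent.R242

open Metric Set Filter Topology

variable {n : ℕ}

/-! ### partial derivatives of holomorphic functions -/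

theorem tay_pd_analyticAt {f : Cn n → ℂ} {a : Cn n} (hf : AnalyticAt ℂ f a) (j : Fin n) :
    AnalyticAt ℂ (pd j f) a := by
  exact ((ContinuousLinearMap.apply ℂ ℂ (Pi.single j 1 : Cn n)).analyticAt _).comp hf.fderiv

theorem tay_pd_differentiableOn {f : Cn n → ℂ} {U : Set (Cn n)} (hU : IsOpen U)
    (hf : DifferentiableOn ℂ f U) (j : Fin n) : DifferentiableOn ℂ (pd j f) U := by
  exact tayc_pd_differentiableOn hU hf j

theorem tay_pd_iterate_differentiableOn {f : Cn n → ℂ} {U : Set (Cn n)} (hU : IsOpen U)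
    (hf : DifferentiableOn ℂ f U) (j : Fin n) (k : ℕ) : DifferentiableOn ℂ ((pd j)^[k] f) U := by
  exact tayc_iter_pd_differentiableOn hU hf j k

/-- the derivatives of a slice in the first variable. -/
theorem tay_iteratedDeriv_cons {f : Cn (n + 1) → ℂ} {U : Set (Cn (n + 1))} (hU : IsOpen U)
    (hf : DifferentiableOn ℂ f U) (z' : Cn n) (k : ℕ) {t : ℂ} (ht : (Fin.cons t z' : Cn (n + 1)) ∈ U) :
    iteratedDeriv k (fun s : ℂ => f (Fin.cons s z')) t = ((pd 0)^[k] f) (Fin.cons t z') := by
  induction k generalizing t with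
  | zero => simp
  | succ k ih =>
    rw [iteratedDeriv_succ, Function.iterate_succ_apply']
    have hc : Continuous (fun s : ℂ => (Fin.cons s z' : Cn (n + 1))) := by
      refine continuous_pi (fun i => ?_)
      refine Fin.cases ?_ (fun j => ?_) i
      · simp only [Fin.cons_zero]
        exact continuous_id
      · simp only [Fin.cons_succ]
        exact continuous_const
    have hopen : IsOpen {s : ℂ | (Fin.cons s z' : Cn (n + 1)) ∈ U} := hU.preimage hc
    have h1 : iteratedDeriv k (fun s : ℂ => f (Fin.cons s z')) =ᶠ[𝓝 t]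
        fun s => ((pd 0)^[k] f) (Fin.cons s z') :=
      Filter.eventuallyEq_of_mem (hopen.mem_nhds ht) (fun s hs => ih hs)
    rw [h1.deriv_eq]
    have h2 : DifferentiableAt ℂ ((pd 0)^[k] f) (Fin.cons t z') :=
      (tayc_iter_pd_differentiableOn hU hf 0 k).differentiableAt (hU.mem_nhds ht)
    exact (tayc_hasDerivAt_slice h2).deriv

/-! ### the expansion -/

/-- **Taylor expansion on a polydisc with Cauchy estimates.** -/
theorem tay_exists {f : Cn n → ℂ} {a : Cn n} {r : ℝ} (hf : DifferentiableOn ℂ f (ball a r)) :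
    ∃ F : MvPowerSeries (Fin n) ℂ,
      (∀ ρ M : ℝ, 0 ≤ ρ → ρ < r → (∀ z ∈ closedBall a ρ, ‖f z‖ ≤ M) →
        ∀ γ : Fin n →₀ ℕ, ‖MvPowerSeries.coeff γ F‖ * ρ ^ γ.degree ≤ M) ∧
      ∀ z ∈ ball a r,
        HasSum (fun γ : Fin n →₀ ℕ => MvPowerSeries.coeff γ F * tayMono γ (z - a)) (f z) := by
  by_cases hr : 0 < r
  · obtain ⟨F, h1, h2⟩ := tayc_exists n f a r hr hf
    refine ⟨F, fun ρ M hρ hρr hM γ => ?_, h1⟩
    have hMa : ‖f a‖ ≤ M := hM a (mem_closedBall_self hρ)
    rcases hρ.eq_or_lt with rfl | hρ'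
    · by_cases hγ : γ = 0
      · subst hγ
        have h3 := h1 a (mem_ball_self hr)
        have h4 : HasSum (fun g : Fin n →₀ ℕ => MvPowerSeries.coeff g F * tayMono g (a - a))
            (MvPowerSeries.coeff 0 F) := by
          have := hasSum_single (f := fun g : Fin n →₀ ℕ => MvPowerSeries.coeff g F * tayMono g (a - a)) 0
            (fun g hg => by simp [tayMono_at_zero, hg])
          simpa [tayMono_at_zero] using this
        rw [h4.unique h3]
        simpa using hMa
      · have hd : γ.degree ≠ 0 := by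
          intro h0
          exact hγ ((Finsupp.degree_eq_zero_iff γ).1 h0)
        rw [zero_pow hd, mul_zero]
        exact (norm_nonneg _).trans hMa
    · have := h2 ρ M hρ' hρr.le (fun z hz => hM z (ball_subset_closedBall hz)) γ
      rwa [le_div_iff₀ (pow_pos hρ' _)] at this
  · refine ⟨0, fun ρ M hρ hρr => absurd (lt_of_le_of_lt hρ hρr) hr, fun z hz => ?_⟩
    rw [ball_eq_empty.2 (not_lt.1 hr)] at hz
    exact hz.elim

end Claimed.Agent.R242
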