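/-
Row 242 (S0480), package TAY (owner helper233), LEAVES TAY-Basic-A (sections `spec`, `poly`) and TAY-Basic-B (sections `ring`, `ident`, `coef`).
No paper.

The Taylor map `tay a : (Cn n → ℂ) → MvPowerSeries (Fin n) ℂ` (`Tay/Defs.lean`: the unique series that converges to `f` near `a`).

ROUTES.
* `IsTay.unique`: on the smaller ball the difference series has sum `0`: `tayConv_of_summable`, `tay_series_unique` (translate `z = a + w`).
* `isTay_tay`: `tay_analyticAt_iff`, `tay_exists`, `Exists.choose_spec`.  `IsTay.analyticAt`: `f = tayEval F (· - a)` near `a`,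
  `TayConv.differentiableOn`, `tay_analyticAt_of_ball`.
* `tay_hasSum`, `tay_cauchy`: the series of `tay_exists` on `ball a r` is `tay a f` by `IsTay.tay_eq`.
* ring: exhibit `IsTay` of the right hand side (`HasSum.add`, `tayEval_mul`, ...) and use `IsTay.tay_eq`.
* `tay_pd`: near `a`: `f = tayEval F (· - a)`, `TayConv.pd_eval`, `TayConv.pderiv`.
* `tay_identity`: `AnalyticOnNhd.eqOn_zero_of_preconnected_of_eventuallyEq_zero`.
* `tay_coeff_differentiableOn`: induction on `|γ|` for all `f`: `γ = 0`: `tay_coeff_zero`; `γ + single j 1`: `tay_coeff_succ` and the induction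
  hypothesis for `pd j f`.
-/
import Claimed.Agent.R242.Tay.Exist

set_option autoImplicit false

namespace Claimed.Agent.R242

open Metric Set Filter Topology

variable {n : ℕ}

section spec

variable {f g : Cn n → ℂ} {a : Cn n} {F G : MvPowerSeries (Fin n) ℂ} {r : ℝ}

/-- `IsTay` in terms of `TayConv` and `tayEval`. -/
theorem IsTay.exists_conv (h : IsTay f a F) :
    ∃ ρ > 0, TayConv F ρ ∧ ∀ z ∈ ball a ρ, f z = tayEval F (z - a) := by
  obtain ⟨ρ, hρ, hs⟩ := h
  refine ⟨ρ, hρ, tayConv_of_summable fun z hz => ?_, fun z hz => (hs z hz).tsum_eq.symm⟩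
  have hz' : a + z ∈ ball a ρ := by
    rw [mem_ball_iff_norm] at hz ⊢
    simpa using hz
  have := (hs (a + z) hz').summable
  simpa using this

theorem isTay_of_conv (hF : TayConv F r) (hr : 0 < r) (h : ∀ z ∈ ball a r, f z = tayEval F (z - a)) :
    IsTay f a F := by
  refine ⟨r, hr, fun z hz => ?_⟩
  rw [h z hz]
  exact hF.hasSum (by rwa [mem_ball_iff_norm] at hz)

/-- two germs on a common polydisc. -/
theorem IsTay.exists_conv₂ (h1 : IsTay f a F) (h2 : IsTay g a G) :
    ∃ ρ > 0, TayConv F ρ ∧ TayConv G ρ ∧ (∀ z ∈ ball a ρ, f z = tayEval F (z - a)) ∧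
      ∀ z ∈ ball a ρ, g z = tayEval G (z - a) := by
  obtain ⟨ρ1, hρ1, c1, e1⟩ := h1.exists_conv
  obtain ⟨ρ2, hρ2, c2, e2⟩ := h2.exists_conv
  refine ⟨min ρ1 ρ2, lt_min hρ1 hρ2, c1.mono (min_le_left _ _), c2.mono (min_le_right _ _),
    fun z hz => e1 z (ball_subset_ball (min_le_left _ _) hz),
    fun z hz => e2 z (ball_subset_ball (min_le_right _ _) hz)⟩

theorem IsTay.unique (h1 : IsTay f a F) (h2 : IsTay f a G) : F = G := by
  obtain ⟨ρ, hρ, c1, c2, e1, e2⟩ := h1.exists_conv₂ h2
  have h0 : F - G = 0 := by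
    refine tay_series_unique (c1.sub c2) hρ fun z hz => ?_
    have hz0 : ‖z‖ < ρ := by rwa [mem_ball_zero_iff] at hz
    have hz' : a + z ∈ ball a ρ := by
      rw [mem_ball_iff_norm]
      simpa using hz0
    rw [tayEval_sub c1 c2 hz0]
    have h3 := e1 _ hz'
    have h4 := e2 _ hz'
    simp only [add_sub_cancel_left] at h3 h4
    rw [← h3, ← h4, sub_self]
  exact sub_eq_zero.mp h0

theorem IsTay.tay_eq (h : IsTay f a F) : tay a f = F := by
  have hex : ∃ F, IsTay f a F := ⟨F, h⟩
  unfold tay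
  rw [dif_pos hex]
  exact hex.choose_spec.unique h

theorem IsTay.analyticAt (h : IsTay f a F) : AnalyticAt ℂ f a := by
  obtain ⟨ρ, hρ, c, e⟩ := h.exists_conv
  refine tay_analyticAt_of_ball hρ ?_
  have h1 : DifferentiableOn ℂ (fun z => tayEval F (z - a)) (ball a ρ) := by
    refine c.differentiableOn.comp (by fun_prop) fun z hz => ?_
    rw [mem_ball_zero_iff]
    rwa [mem_ball_iff_norm] at hz
  exact h1.congr e

theorem isTay_tay (hf : AnalyticAt ℂ f a) : IsTay f a (tay a f) := by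
  obtain ⟨r, hr, hd⟩ := tay_analyticAt_iff.mp hf
  obtain ⟨F, -, hF⟩ := tay_exists hd
  have h : IsTay f a F := ⟨r, hr, hF⟩
  rw [h.tay_eq]
  exact h

theorem tay_of_not_analyticAt (hf : ¬ AnalyticAt ℂ f a) : tay a f = 0 := by
  unfold tay
  rw [dif_neg]
  rintro ⟨F, hF⟩
  exact hf hF.analyticAt

theorem IsTay.congr (h : IsTay f a F) (hfg : f =ᶠ[𝓝 a] g) : IsTay g a F := by
  obtain ⟨ρ, hρ, hs⟩ := h
  obtain ⟨ε, hε, he⟩ := Metric.eventually_nhds_iff_ball.mp hfg
  refine ⟨min ρ ε, lt_min hρ hε, fun z hz => ?_⟩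
  rw [← he z (ball_subset_ball (min_le_right _ _) hz)]
  exact hs z (ball_subset_ball (min_le_left _ _) hz)

theorem tay_congr (hfg : f =ᶠ[𝓝 a] g) : tay a f = tay a g := by
  by_cases hf : AnalyticAt ℂ f a
  · exact (((isTay_tay hf).congr hfg).tay_eq).symm
  · rw [tay_of_not_analyticAt hf, tay_of_not_analyticAt]
    exact fun hg => hf (hg.congr hfg.symm)

theorem isTay_translate_iff (a c : Cn n) (f : Cn n → ℂ) (F : MvPowerSeries (Fin n) ℂ) :
    IsTay (fun y => f (y + c)) a F ↔ IsTay f (a + c) F := by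
  constructor
  · rintro ⟨ρ, hρ, hs⟩
    refine ⟨ρ, hρ, fun z hz => ?_⟩
    have hz' : z - c ∈ ball a ρ := by
      rw [mem_ball_iff_norm] at hz ⊢
      rwa [sub_sub, add_comm c a]
    have := hs (z - c) hz'
    simpa [sub_sub, add_comm c a] using this
  · rintro ⟨ρ, hρ, hs⟩
    refine ⟨ρ, hρ, fun z hz => ?_⟩
    have hz' : z + c ∈ ball (a + c) ρ := by
      rw [mem_ball_iff_norm] at hz ⊢
      rwa [add_sub_add_right_eq_sub]
    have := hs (z + c) hz'
    simpa using this

/-- translation of the centre. -/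
theorem tay_translate (a c : Cn n) (f : Cn n → ℂ) : tay a (fun y => f (y + c)) = tay (a + c) f := by
  by_cases h : ∃ F, IsTay f (a + c) F
  · obtain ⟨F, hF⟩ := h
    rw [hF.tay_eq, ((isTay_translate_iff a c f F).mpr hF).tay_eq]
  · have h' : ¬ ∃ F, IsTay (fun y => f (y + c)) a F := by
      rintro ⟨F, hF⟩
      exact h ⟨F, (isTay_translate_iff a c f F).mp hF⟩
    unfold tay
    rw [dif_neg h, dif_neg h']

theorem tay_eq_tay_zero (a : Cn n) (f : Cn n → ℂ) : tay a f = tay 0 (fun y => f (a + y)) := by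
  have := tay_translate 0 a f
  rw [zero_add] at this
  rw [← this]
  simp only [add_comm]

end spec

section poly

variable {f : Cn n → ℂ} {a z : Cn n} {r : ℝ}

theorem tay_exists_spec (hf : DifferentiableOn ℂ f (ball a r)) (hr : 0 < r) :
    (∀ ρ M : ℝ, 0 ≤ ρ → ρ < r → (∀ z ∈ closedBall a ρ, ‖f z‖ ≤ M) →
        ∀ γ : Fin n →₀ ℕ, ‖MvPowerSeries.coeff γ (tay a f)‖ * ρ ^ γ.degree ≤ M) ∧
      ∀ z ∈ ball a r,
        HasSum (fun γ : Fin n →₀ ℕ => MvPowerSeries.coeff γ (tay a f) * tayMono γ (z - a)) (f z) := by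
  obtain ⟨F, h1, h2⟩ := tay_exists hf
  have h : IsTay f a F := ⟨r, hr, h2⟩
  rw [h.tay_eq]
  exact ⟨h1, h2⟩

/-- **convergence on the whole polydisc.** -/
theorem tay_hasSum (hf : DifferentiableOn ℂ f (ball a r)) (hz : z ∈ ball a r) :
    HasSum (fun γ : Fin n →₀ ℕ => MvPowerSeries.coeff γ (tay a f) * tayMono γ (z - a)) (f z) := by
  have hr : 0 < r := lt_of_le_of_lt dist_nonneg (mem_ball.mp hz)
  exact (tay_exists_spec hf hr).2 z hz

/-- **Cauchy estimates.** -/
theorem tay_cauchy (hf : DifferentiableOn ℂ f (ball a r)) {ρ M : ℝ} (h0 : 0 ≤ ρ) (hρ : ρ < r)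
    (hM : ∀ z ∈ closedBall a ρ, ‖f z‖ ≤ M) (γ : Fin n →₀ ℕ) :
    ‖MvPowerSeries.coeff γ (tay a f)‖ * ρ ^ γ.degree ≤ M :=
  (tay_exists_spec hf (lt_of_le_of_lt h0 hρ)).1 ρ M h0 hρ hM γ

theorem tay_conv (hf : DifferentiableOn ℂ f (ball a r)) : TayConv (tay a f) r := by
  refine tayConv_of_summable fun z hz => ?_
  have hz' : a + z ∈ ball a r := by
    rw [mem_ball_iff_norm] at hz ⊢
    simpa using hz
  have := (tay_hasSum hf hz').summable
  simpa using this

theorem tay_eval_eq (hf : DifferentiableOn ℂ f (ball a r)) (hz : z ∈ ball a r) :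
    tayEval (tay a f) (z - a) = f z :=
  (tay_hasSum hf hz).tsum_eq

/-- the Taylor series of the sum of a convergent power series. -/
theorem tay_tayEval {F : MvPowerSeries (Fin n) ℂ} (hF : TayConv F r) (hr : 0 < r) (a : Cn n) :
    tay a (fun z => tayEval F (z - a)) = F :=
  (isTay_of_conv hF hr fun _ _ => rfl).tay_eq

end poly

section ring

variable {f g : Cn n → ℂ} {a : Cn n}

theorem tay_coeff_zero (hf : AnalyticAt ℂ f a) : MvPowerSeries.coeff 0 (tay a f) = f a := by
  obtain ⟨ρ, hρ, -, e⟩ := (isTay_tay hf).exists_conv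
  rw [e a (mem_ball_self hρ), sub_self, tayEval_at_zero]

theorem tay_constantCoeff (hf : AnalyticAt ℂ f a) : MvPowerSeries.constantCoeff (tay a f) = f a := by
  rw [← MvPowerSeries.coeff_zero_eq_constantCoeff_apply]
  exact tay_coeff_zero hf

theorem tay_const (a : Cn n) (c : ℂ) : tay a (fun _ => c) = MvPowerSeries.C c := by
  have := tay_tayEval (tayConv_C (n := n) c 1) one_pos a
  simpa only [tayEval_C] using this

theorem tay_coord (a : Cn n) (j : Fin n) : tay a (fun z => z j - a j) = MvPowerSeries.X j := by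
  have := tay_tayEval (tayConv_X (n := n) j 1) one_pos a
  simpa only [tayEval_X, Pi.sub_apply] using this

theorem IsTay.add {F G : MvPowerSeries (Fin n) ℂ} (h1 : IsTay f a F) (h2 : IsTay g a G) :
    IsTay (fun z => f z + g z) a (F + G) := by
  obtain ⟨ρ, hρ, c1, c2, e1, e2⟩ := h1.exists_conv₂ h2
  refine isTay_of_conv (c1.add c2) hρ fun z hz => ?_
  rw [tayEval_add c1 c2 (by rwa [mem_ball_iff_norm] at hz), e1 z hz, e2 z hz]

theorem IsTay.mul {F G : MvPowerSeries (Fin n) ℂ} (h1 : IsTay f a F) (h2 : IsTay g a G) :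
    IsTay (fun z => f z * g z) a (F * G) := by
  obtain ⟨ρ, hρ, c1, c2, e1, e2⟩ := h1.exists_conv₂ h2
  refine isTay_of_conv (c1.mul c2) hρ fun z hz => ?_
  rw [tayEval_mul c1 c2 (by rwa [mem_ball_iff_norm] at hz), e1 z hz, e2 z hz]

theorem IsTay.neg {F : MvPowerSeries (Fin n) ℂ} (h1 : IsTay f a F) :
    IsTay (fun z => -f z) a (-F) := by
  obtain ⟨ρ, hρ, c1, e1⟩ := h1.exists_conv
  refine isTay_of_conv c1.neg hρ fun z hz => ?_
  rw [tayEval_neg, e1 z hz]

theorem IsTay.smul {F : MvPowerSeries (Fin n) ℂ} (h1 : IsTay f a F) (c : ℂ) :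
    IsTay (fun z => c * f z) a (c • F) := by
  obtain ⟨ρ, hρ, c1, e1⟩ := h1.exists_conv
  refine isTay_of_conv (c1.smul c) hρ fun z hz => ?_
  rw [tayEval_smul, e1 z hz]

theorem isTay_const (a : Cn n) (c : ℂ) : IsTay (fun _ => c) a (MvPowerSeries.C c) :=
  isTay_of_conv (tayConv_C c 1) one_pos fun z _ => (tayEval_C c (z - a)).symm

theorem isTay_coord (a : Cn n) (j : Fin n) : IsTay (fun z => z j - a j) a (MvPowerSeries.X j) :=
  isTay_of_conv (tayConv_X j 1) one_pos fun z _ => (tayEval_X j (z - a)).symm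

theorem tay_coord' (a : Cn n) (j : Fin n) :
    tay a (fun z => z j) = MvPowerSeries.C (a j) + MvPowerSeries.X j := by
  have := ((isTay_const a (a j)).add (isTay_coord a j)).tay_eq
  simpa only [add_sub_cancel] using this

theorem tay_tayMono (a : Cn n) (γ : Fin n →₀ ℕ) :
    tay a (fun z => tayMono γ (z - a)) = MvPowerSeries.monomial γ 1 := by
  have := tay_tayEval (tayConv_monomial (n := n) γ 1 1) one_pos a
  simpa only [tayEval_monomial, one_mul] using this

theorem tay_add (hf : AnalyticAt ℂ f a) (hg : AnalyticAt ℂ g a) :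
    tay a (fun z => f z + g z) = tay a f + tay a g :=
  ((isTay_tay hf).add (isTay_tay hg)).tay_eq

theorem tay_neg (a : Cn n) (f : Cn n → ℂ) : tay a (fun z => -f z) = -tay a f := by
  by_cases hf : AnalyticAt ℂ f a
  · exact (isTay_tay hf).neg.tay_eq
  · rw [tay_of_not_analyticAt hf, tay_of_not_analyticAt, neg_zero]
    intro h
    apply hf
    have : AnalyticAt ℂ (fun z => - -f z) a := h.fun_neg
    simpa only [neg_neg] using this

theorem tay_sub (hf : AnalyticAt ℂ f a) (hg : AnalyticAt ℂ g a) :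
    tay a (fun z => f z - g z) = tay a f - tay a g := by
  have := ((isTay_tay hf).add (isTay_tay hg).neg).tay_eq
  simpa only [← sub_eq_add_neg] using this

theorem tay_smul (hf : AnalyticAt ℂ f a) (c : ℂ) : tay a (fun z => c * f z) = c • tay a f :=
  ((isTay_tay hf).smul c).tay_eq

theorem tay_mul (hf : AnalyticAt ℂ f a) (hg : AnalyticAt ℂ g a) :
    tay a (fun z => f z * g z) = tay a f * tay a g :=
  ((isTay_tay hf).mul (isTay_tay hg)).tay_eq

theorem tay_pow (hf : AnalyticAt ℂ f a) (k : ℕ) : tay a (fun z => f z ^ k) = tay a f ^ k := by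
  induction k with
  | zero =>
    simp only [pow_zero]
    rw [tay_const, map_one]
  | succ k ih =>
    simp only [pow_succ]
    rw [tay_mul (hf.fun_pow k) hf, ih]

theorem tay_sum {ι : Type*} (s : Finset ι) {f : ι → Cn n → ℂ} (hf : ∀ i ∈ s, AnalyticAt ℂ (f i) a) :
    tay a (fun z => ∑ i ∈ s, f i z) = ∑ i ∈ s, tay a (f i) := by
  classical
  induction s using Finset.induction_on with
  | empty =>
    simp only [Finset.sum_empty]
    rw [tay_const, map_zero]
  | insert i s hi ih =>
    simp only [Finset.sum_insert hi]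
    have h1 : ∀ i ∈ s, AnalyticAt ℂ (f i) a := fun k hk => hf k (Finset.mem_insert_of_mem hk)
    rw [tay_add (hf i (Finset.mem_insert_self i s)) (Finset.analyticAt_fun_sum s h1), ih h1]

theorem tay_prod {ι : Type*} (s : Finset ι) {f : ι → Cn n → ℂ} (hf : ∀ i ∈ s, AnalyticAt ℂ (f i) a) :
    tay a (fun z => ∏ i ∈ s, f i z) = ∏ i ∈ s, tay a (f i) := by
  classical
  induction s using Finset.induction_on with
  | empty =>
    simp only [Finset.prod_empty]
    rw [tay_const, map_one]
  | insert i s hi ih =>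
    simp only [Finset.prod_insert hi]
    have h1 : ∀ i ∈ s, AnalyticAt ℂ (f i) a := fun k hk => hf k (Finset.mem_insert_of_mem hk)
    rw [tay_mul (hf i (Finset.mem_insert_self i s)) (Finset.analyticAt_fun_prod s h1), ih h1]

theorem tay_inv (hf : AnalyticAt ℂ f a) (h0 : f a ≠ 0) : tay a (fun z => (f z)⁻¹) = (tay a f)⁻¹ := by
  have hc : MvPowerSeries.constantCoeff (tay a f) ≠ 0 := by rwa [tay_constantCoeff hf]
  rw [MvPowerSeries.eq_inv_iff_mul_eq_one hc, ← tay_mul (hf.fun_inv h0) hf]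
  have h1 : (fun z => (f z)⁻¹ * f z) =ᶠ[𝓝 a] fun _ => (1 : ℂ) := by
    filter_upwards [hf.continuousAt.eventually_ne h0] with z hz
    exact inv_mul_cancel₀ hz
  rw [tay_congr h1, tay_const, map_one]

theorem IsTay.pd {F : MvPowerSeries (Fin n) ℂ} (h : IsTay f a F) (j : Fin n) :
    IsTay (pd j f) a (MvPowerSeries.pderiv ℂ j F) := by
  obtain ⟨ρ, hρ, c, e⟩ := h.exists_conv
  refine isTay_of_conv (c.pderiv j) hρ fun z hz => ?_
  rw [← c.pd_eval (by rwa [mem_ball_iff_norm] at hz) j]
  have h1 : f =ᶠ[𝓝 z] fun w => tayEval F (w - a) := by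
    filter_upwards [isOpen_ball.mem_nhds hz] with w hw using e w hw
  unfold Claimed.Agent.R242.pd
  rw [h1.fderiv_eq, fderiv_comp_sub]

/-- the Taylor map commutes with the partial derivatives. -/
theorem tay_pd (hf : AnalyticAt ℂ f a) (j : Fin n) :
    tay a (pd j f) = MvPowerSeries.pderiv ℂ j (tay a f) :=
  ((isTay_tay hf).pd j).tay_eq

end ring

section ident

variable {f g : Cn n → ℂ} {a : Cn n} {U : Set (Cn n)}

theorem tay_eq_zero_iff (hf : AnalyticAt ℂ f a) : tay a f = 0 ↔ f =ᶠ[𝓝 a] 0 := by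
  constructor
  · intro h
    obtain ⟨ρ, hρ, hs⟩ := isTay_tay hf
    filter_upwards [ball_mem_nhds a hρ] with z hz
    have h1 := hs z hz
    rw [h] at h1
    simp only [map_zero, zero_mul] at h1
    exact h1.unique hasSum_zero
  · intro h
    have h1 : f =ᶠ[𝓝 a] fun _ => (0 : ℂ) := h
    rw [tay_congr h1, tay_const, map_zero]

/-- **identity theorem.** -/
theorem tay_identity (hU : IsOpen U) (hc : IsPreconnected U) (hf : DifferentiableOn ℂ f U)
    (ha : a ∈ U) (h : tay a f = 0) : ∀ z ∈ U, f z = 0 := by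
  have hA : AnalyticOnNhd ℂ f U := tay_osgood hU hf
  have := hA.eqOn_zero_of_preconnected_of_eventuallyEq_zero hc ha ((tay_eq_zero_iff (hA a ha)).mp h)
  exact fun z hz => this hz

theorem tay_injOn (hU : IsOpen U) (hc : IsPreconnected U) (hf : DifferentiableOn ℂ f U)
    (hg : DifferentiableOn ℂ g U) (ha : a ∈ U) (h : tay a f = tay a g) : EqOn f g U := by
  have h1 : tay a (fun z => f z - g z) = 0 := by
    rw [tay_sub (tay_osgood hU hf a ha) (tay_osgood hU hg a ha), h, sub_self]
  intro z hz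
  exact sub_eq_zero.mp (tay_identity hU hc (hf.sub hg) ha h1 z hz)

/-- on a connected domain the vanishing of the Taylor series does not depend on the point. -/
theorem tay_eq_zero_iff_of_mem (hU : IsOpen U) (hc : IsPreconnected U) (hf : DifferentiableOn ℂ f U)
    {b : Cn n} (ha : a ∈ U) (hb : b ∈ U) : tay a f = 0 ↔ tay b f = 0 := by
  have key : ∀ {a b : Cn n}, a ∈ U → b ∈ U → tay a f = 0 → tay b f = 0 := by
    intro a b ha hb h
    rw [tay_eq_zero_iff (tay_osgood hU hf b hb)]
    filter_upwards [hU.mem_nhds hb] with z hz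
    exact tay_identity hU hc hf ha h z hz
  exact ⟨key ha hb, key hb ha⟩

end ident

section coef

variable {f : Cn n → ℂ} {a : Cn n} {U : Set (Cn n)}

theorem tay_coeff_succ (hf : AnalyticAt ℂ f a) (γ : Fin n →₀ ℕ) (j : Fin n) :
    MvPowerSeries.coeff γ (tay a (pd j f))
      = MvPowerSeries.coeff (γ + Finsupp.single j 1) (tay a f) * ((γ j : ℂ) + 1) := by
  rw [tay_pd hf, MvPowerSeries.coeff_pderiv]

/-- the coefficient `γ + e_j` in terms of `pd j f`. -/
theorem tay_coeff_add_single (hf : AnalyticAt ℂ f a) (γ : Fin n →₀ ℕ) (j : Fin n) :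
    MvPowerSeries.coeff (γ + Finsupp.single j 1) (tay a f)
      = ((γ j : ℂ) + 1)⁻¹ * MvPowerSeries.coeff γ (tay a (pd j f)) := by
  have h : ((γ j : ℂ) + 1) ≠ 0 := by exact_mod_cast Nat.succ_ne_zero (γ j)
  rw [tay_coeff_succ hf]
  field_simp

/-- induction principle on exponents. -/
theorem tay_exponent_induction {p : (Fin n →₀ ℕ) → Prop} (h0 : p 0)
    (h1 : ∀ (γ : Fin n →₀ ℕ) (j : Fin n), p γ → p (γ + Finsupp.single j 1)) (γ : Fin n →₀ ℕ) : p γ := by
  induction γ using Finsupp.induction with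
  | zero => exact h0
  | single_add j k γ _ _ ih =>
    clear * - ih h1
    induction k with
    | zero => simpa using ih
    | succ k ihk =>
      have := h1 _ j ihk
      rwa [add_right_comm, ← Finsupp.single_add] at this

/-- the Taylor coefficients are holomorphic functions of the centre. -/
theorem tay_coeff_differentiableOn (hU : IsOpen U) (hf : DifferentiableOn ℂ f U) (γ : Fin n →₀ ℕ) :
    DifferentiableOn ℂ (fun b => MvPowerSeries.coeff γ (tay b f)) U := by
  induction γ using tay_exponent_induction generalizing f with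
  | h0 => exact hf.congr fun b hb => tay_coeff_zero (tay_osgood hU hf b hb)
  | h1 γ j ih =>
    have h2 := (ih (tay_pd_differentiableOn hU hf j)).const_mul (((γ j : ℂ) + 1)⁻¹)
    exact h2.congr fun b hb => tay_coeff_add_single (tay_osgood hU hf b hb) γ j

theorem tay_choose_prod_succ (α β α' : Fin n →₀ ℕ) (j : Fin n) (hα : α' = α + Finsupp.single j 1) :
    (∏ i, ((α' i + β i).choose (α' i) : ℂ)) * ((α j : ℂ) + 1)
      = (∏ i, ((α i + β i).choose (α i) : ℂ)) * (((α + β) j : ℂ) + 1) := by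
  rw [← Finset.mul_prod_erase Finset.univ _ (Finset.mem_univ j),
    ← Finset.mul_prod_erase Finset.univ (fun i => ((α i + β i).choose (α i) : ℂ)) (Finset.mem_univ j)]
  have h1 : ∏ i ∈ Finset.univ.erase j, ((α' i + β i).choose (α' i) : ℂ)
      = ∏ i ∈ Finset.univ.erase j, ((α i + β i).choose (α i) : ℂ) := by
    refine Finset.prod_congr rfl fun i hi => ?_
    have hij : i ≠ j := Finset.ne_of_mem_erase hi
    have : α' i = α i := by
      rw [hα, Finsupp.add_apply, Finsupp.single_apply, if_neg hij.symm, add_zero]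
    rw [this]
  rw [h1]
  have h2 : ((α' j + β j).choose (α' j) : ℂ) * ((α j : ℂ) + 1)
      = ((α j + β j).choose (α j) : ℂ) * (((α + β) j : ℂ) + 1) := by
    have h0 := Nat.add_one_mul_choose_eq (α j + β j) (α j)
    have h3 : α' j = α j + 1 := by rw [hα, Finsupp.add_apply, Finsupp.single_eq_same]
    have h3' : α j + 1 + β j = α j + β j + 1 := by omega
    rw [h3, h3', Finsupp.add_apply]
    have h4 : (((α j + β j + 1).choose (α j + 1) * (α j + 1) : ℕ) : ℂ)
        = (((α j + β j + 1) * (α j + β j).choose (α j) : ℕ) : ℂ) := by rw [h0]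
    push_cast at h4 ⊢
    rw [h4]; ring
  calc _ = ((α' j + β j).choose (α' j) : ℂ) * ((α j : ℂ) + 1)
        * ∏ i ∈ Finset.univ.erase j, ((α i + β i).choose (α i) : ℂ) := by ring
    _ = _ := by rw [h2]; ring

/-- Taylor coefficients of a Taylor coefficient. -/
theorem tay_coeff_coeff (hU : IsOpen U) (hf : DifferentiableOn ℂ f U) (ha : a ∈ U)
    (α β : Fin n →₀ ℕ) :
    MvPowerSeries.coeff β (tay a (fun b => MvPowerSeries.coeff α (tay b f)))
      = (∏ i, ((α i + β i).choose (α i) : ℂ)) * MvPowerSeries.coeff (α + β) (tay a f) := by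
  induction α using tay_exponent_induction generalizing f with
  | h0 =>
    have h1 : (fun b => MvPowerSeries.coeff 0 (tay b f)) =ᶠ[𝓝 a] f := by
      filter_upwards [hU.mem_nhds ha] with b hb using tay_coeff_zero (tay_osgood hU hf b hb)
    rw [tay_congr h1]
    simp
  | h1 α j ih =>
    have hne : ((α j : ℂ) + 1) ≠ 0 := by exact_mod_cast Nat.succ_ne_zero (α j)
    have hpd := tay_pd_differentiableOn hU hf j
    have h1 : (fun b => MvPowerSeries.coeff (α + Finsupp.single j 1) (tay b f)) =ᶠ[𝓝 a]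
        fun b => ((α j : ℂ) + 1)⁻¹ * MvPowerSeries.coeff α (tay b (pd j f)) := by
      filter_upwards [hU.mem_nhds ha] with b hb
      exact tay_coeff_add_single (tay_osgood hU hf b hb) α j
    have h2 : AnalyticAt ℂ (fun b => MvPowerSeries.coeff α (tay b (pd j f))) a :=
      tay_osgood hU (tay_coeff_differentiableOn hU hpd α) a ha
    rw [tay_congr h1, tay_smul h2, MvPowerSeries.coeff_smul, ih hpd,
      tay_coeff_succ (tay_osgood hU hf a ha)]
    have h3 := tay_choose_prod_succ α β _ j rfl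
    have h4 : α + Finsupp.single j 1 + β = α + β + Finsupp.single j 1 := add_right_comm _ _ _
    rw [h4]
    generalize (∏ i, (((α + Finsupp.single j 1 : Fin n →₀ ℕ) i + β i).choose
      ((α + Finsupp.single j 1 : Fin n →₀ ℕ) i) : ℂ)) = P at h3 ⊢
    have h5 : P
        = ((α j : ℂ) + 1)⁻¹ * ((∏ i, ((α i + β i).choose (α i) : ℂ)) * (((α + β) j : ℂ) + 1)) := by
      rw [← h3]; field_simp
    rw [h5]; ring

theorem pd_eq_dz {z : Cn n} (hf : DifferentiableAt ℂ f z) (j : Fin n) : pd j f z = dz j f z := by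
  unfold pd dz
  rw [hf.fderiv_restrictScalars ℝ]
  simp only [ContinuousLinearMap.coe_restrictScalars']
  have h1 : (Pi.single j Complex.I : Cn n) = Complex.I • Pi.single j 1 := by
    ext i
    by_cases h : i = j
    · subst h; simp
    · simp [Pi.single_eq_of_ne h]
  rw [h1, map_smul, smul_eq_mul, ← mul_assoc, Complex.I_mul_I]
  ring

theorem pd_comm (hf : AnalyticAt ℂ f a) (i j : Fin n) : pd i (pd j f) a = pd j (pd i f) a := by
  have key : ∀ i j : Fin n, pd i (pd j f) a
      = MvPowerSeries.coeff (Finsupp.single i 1 + Finsupp.single j 1) (tay a f)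
        * (((Finsupp.single i 1 : Fin n →₀ ℕ) j : ℂ) + 1) := by
    intro i j
    have h1 := tay_pd_analyticAt hf j
    rw [← tay_coeff_zero (tay_pd_analyticAt h1 i), tay_coeff_succ h1, tay_coeff_succ hf]
    simp
  rw [key i j, key j i, add_comm (Finsupp.single i 1), Finsupp.single_apply, Finsupp.single_apply]
  simp only [eq_comm]

end coef

end Claimed.Agent.R242
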