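/-
Row 242 (S0480), package TAY (owner helper233), LEAF TAY-Strat.
Paper: Lemma 2.1 (`lem:monomial-local`), first assertion; semicontinuity of multiplicities.

A weighted order whose weights are supported on `J` can be computed at ANY point of the stratum `{z_i = a_i, i ∈ J}` of the polydisc.

ROUTES.
* `tay_proj`: `P z i = if i ∈ J then a i else z i`.  For `b` in the stratum, `IsTay (h ∘ P) b (series of h at b with the terms γ|_J ≠ 0 removed)`: termwise
  `tayMono γ (P z - b) = 0` if some `γ i ≠ 0, i ∈ J`, and `= tayMono γ (z - b)` otherwise; `P` maps `ball b ρ` into itself.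
* `tay_supp_stratum`: let `h b := coeff α (tay b f)` (holomorphic on the ball: `tay_coeff_differentiableOn`) and `k := h ∘ P` (holomorphic on the ball,
  `P` maps `ball a r` into itself).  For `b` in the stratum and `β` vanishing on `J`:
  `coeff β (tay b k) = coeff β (tay b h) = (∏ choose) * coeff (α + β) (tay b f)` (`tay_proj`, `tay_coeff_coeff`; the binomial factor is `≠ 0`), and
  `coeff β (tay b k) = 0` for the other `β`.  So `(∃ β ...) ↔ tay b k ≠ 0`, which does not depend on `b` (`tay_eq_zero_iff_of_mem`, the ball is convex).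
* `tay_wOrd_stratum`: every `γ` is `α + β` with `α` supported in `J = {i | u i ≠ 0}`, `β` vanishing on `J`, `wdeg u γ = wdeg u α`; so the two sets
  `wdeg u '' {γ | coeff γ ≠ 0}` are EQUAL by `tay_supp_stratum`.
* `tay_wOrd_usc`: the infimum is attained (`isIni_exists` for `monoLT u 0`, `wOrd_eq_of_isIni`), `b ↦ coeff γ (tay b f)` is continuous, `wOrd_le_of_coeff_ne`.
-/
import Claimed.Agent.R242.Tay.Basic
import Claimed.Agent.R242.Cvx.WOrd

set_option autoImplicit false

namespace Claimed.Agent.R242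

open Metric Set Filter Topology

variable {n : ℕ}

open Classical in
/-- the projection to the stratum does not increase the distance to a point of the stratum. -/
theorem tayStrat_proj_mem {b z : Cn n} {ρ : ℝ} (J : Finset (Fin n)) (hz : z ∈ ball b ρ) :
    (fun i => if i ∈ J then b i else z i) ∈ ball b ρ := by
  have hρ : 0 < ρ := lt_of_le_of_lt dist_nonneg hz
  rw [mem_ball, dist_pi_lt_iff hρ] at hz ⊢
  intro i
  by_cases hi : i ∈ J
  · simp only [if_pos hi, dist_self]
    exact hρ
  · simp only [if_neg hi]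
    exact hz i

open Classical in
theorem tayStrat_mono (J : Finset (Fin n)) (b z : Cn n) (γ : Fin n →₀ ℕ) :
    tayMono γ ((fun i => if i ∈ J then b i else z i) - b)
      = if ∀ i ∈ J, γ i = 0 then tayMono γ (z - b) else 0 := by
  unfold tayMono
  split_ifs with h
  · refine Finset.prod_congr rfl fun i _ => ?_
    by_cases hi : i ∈ J
    · rw [h i hi, pow_zero, pow_zero]
    · simp only [Pi.sub_apply, if_neg hi]
  · push Not at h
    obtain ⟨i, hi, hγ⟩ := h
    refine Finset.prod_eq_zero (Finset.mem_univ i) ?_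
    simp only [Pi.sub_apply, if_pos hi, sub_self]
    exact zero_pow hγ

open Classical in
/-- restriction to a coordinate stratum, as a function on `Cn n`. -/
theorem tay_proj {h : Cn n → ℂ} {b : Cn n} (hh : AnalyticAt ℂ h b) (J : Finset (Fin n))
    (γ : Fin n →₀ ℕ) :
    MvPowerSeries.coeff γ (tay b (fun z => h (fun i => if i ∈ J then b i else z i)))
      = if ∀ i ∈ J, γ i = 0 then MvPowerSeries.coeff γ (tay b h) else 0 := by
  obtain ⟨ρ, hρ, hs⟩ := isTay_tay hh
  set G : MvPowerSeries (Fin n) ℂ :=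
    fun δ => if ∀ i ∈ J, δ i = 0 then MvPowerSeries.coeff δ (tay b h) else 0 with hG
  have hT : IsTay (fun z => h (fun i => if i ∈ J then b i else z i)) b G := by
    refine ⟨ρ, hρ, fun z hz => ?_⟩
    have h1 := hs _ (tayStrat_proj_mem J hz)
    convert h1 using 1
    funext δ
    rw [tayStrat_mono]
    have : MvPowerSeries.coeff δ G
        = if ∀ i ∈ J, δ i = 0 then MvPowerSeries.coeff δ (tay b h) else 0 := rfl
    rw [this]
    split_ifs <;> simp
  rw [hT.tay_eq]
  rfl

open Classical in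
theorem tayStrat_aux {f : Cn n → ℂ} {a c : Cn n} {r : ℝ} (hf : DifferentiableOn ℂ f (ball a r))
    (hc : c ∈ ball a r) (J : Finset (Fin n)) (hcJ : ∀ i ∈ J, c i = a i) (α : Fin n →₀ ℕ) :
    (∃ β : Fin n →₀ ℕ, (∀ i ∈ J, β i = 0) ∧ MvPowerSeries.coeff (α + β) (tay c f) ≠ 0) ↔
      tay c (fun z => MvPowerSeries.coeff α (tay (fun i => if i ∈ J then a i else z i) f)) ≠ 0 := by
  have hh : DifferentiableOn ℂ (fun b => MvPowerSeries.coeff α (tay b f)) (ball a r) :=
    tay_coeff_differentiableOn isOpen_ball hf α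
  have hha : AnalyticAt ℂ (fun b => MvPowerSeries.coeff α (tay b f)) c :=
    tay_osgood isOpen_ball hh c hc
  have e : (fun z : Cn n => MvPowerSeries.coeff α (tay (fun i => if i ∈ J then a i else z i) f))
      = fun z => (fun b => MvPowerSeries.coeff α (tay b f)) (fun i => if i ∈ J then c i else z i) := by
    funext z
    have : (fun i => if i ∈ J then a i else z i) = fun i => if i ∈ J then c i else z i := by
      funext i
      by_cases hi : i ∈ J
      · simp only [if_pos hi, hcJ i hi]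
      · simp only [if_neg hi]
    simp only [this]
  rw [e]
  have hco : ∀ β : Fin n →₀ ℕ, MvPowerSeries.coeff β
      (tay c (fun z => (fun b => MvPowerSeries.coeff α (tay b f))
        (fun i => if i ∈ J then c i else z i)))
      = if ∀ i ∈ J, β i = 0 then
          (∏ i, ((α i + β i).choose (α i) : ℂ)) * MvPowerSeries.coeff (α + β) (tay c f) else 0 := by
    intro β
    rw [tay_proj hha J β, tay_coeff_coeff isOpen_ball hf hc α β]
  have hch : ∀ β : Fin n →₀ ℕ, (∏ i, ((α i + β i).choose (α i) : ℂ)) ≠ 0 := by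
    intro β
    refine Finset.prod_ne_zero_iff.2 fun i _ => ?_
    exact_mod_cast (Nat.choose_pos (Nat.le_add_right _ _)).ne'
  constructor
  · rintro ⟨β, hβ, hne⟩ h0
    have := hco β
    rw [h0, if_pos hβ, map_zero] at this
    exact mul_ne_zero (hch β) hne this.symm
  · intro hne
    by_contra hcon
    push Not at hcon
    apply hne
    refine MvPowerSeries.ext fun β => ?_
    rw [hco β, map_zero]
    split_ifs with hβ
    · rw [hcon β hβ, mul_zero]
    · rfl

/-- the `J`-parts of the exponents of the Taylor series are the same at all points of the stratum. -/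
theorem tay_supp_stratum {f : Cn n → ℂ} {a b : Cn n} {r : ℝ} (hf : DifferentiableOn ℂ f (ball a r))
    (hb : b ∈ ball a r) (J : Finset (Fin n)) (hbJ : ∀ i ∈ J, b i = a i) (α : Fin n →₀ ℕ) :
    (∃ β : Fin n →₀ ℕ, (∀ i ∈ J, β i = 0) ∧ MvPowerSeries.coeff (α + β) (tay b f) ≠ 0) ↔
      (∃ β : Fin n →₀ ℕ, (∀ i ∈ J, β i = 0) ∧ MvPowerSeries.coeff (α + β) (tay a f) ≠ 0) := by
  classical
  have hr : 0 < r := lt_of_le_of_lt dist_nonneg hb
  have ha : a ∈ ball a r := mem_ball_self hr
  rw [tayStrat_aux hf hb J hbJ α, tayStrat_aux hf ha J (fun _ _ => rfl) α]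
  have hh : DifferentiableOn ℂ (fun b => MvPowerSeries.coeff α (tay b f)) (ball a r) :=
    tay_coeff_differentiableOn isOpen_ball hf α
  have hP : Differentiable ℂ (fun z : Cn n => (fun i => if i ∈ J then a i else z i : Cn n)) := by
    rw [differentiable_pi]
    intro i
    by_cases hi : i ∈ J
    · simp only [if_pos hi]
      exact differentiable_const _
    · simp only [if_neg hi]
      exact differentiable_apply i
  have hk : DifferentiableOn ℂ
      (fun z => MvPowerSeries.coeff α (tay (fun i => if i ∈ J then a i else z i) f)) (ball a r) :=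
    hh.comp hP.differentiableOn (fun z hz => tayStrat_proj_mem J hz)
  exact not_congr (tay_eq_zero_iff_of_mem isOpen_ball (convex_ball a r).isPreconnected hk hb ha)

theorem tayStrat_image_subset {F G : MvPowerSeries (Fin n) ℂ} {u : Fin n → ℝ} (J : Finset (Fin n))
    (hJ : ∀ i, u i ≠ 0 → i ∈ J)
    (h : ∀ α : Fin n →₀ ℕ,
      (∃ β : Fin n →₀ ℕ, (∀ i ∈ J, β i = 0) ∧ MvPowerSeries.coeff (α + β) F ≠ 0) →
      (∃ β : Fin n →₀ ℕ, (∀ i ∈ J, β i = 0) ∧ MvPowerSeries.coeff (α + β) G ≠ 0)) :
    wdeg u '' {γ | MvPowerSeries.coeff γ F ≠ 0} ⊆ wdeg u '' {γ | MvPowerSeries.coeff γ G ≠ 0} := by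
  classical
  have h0 : ∀ β : Fin n →₀ ℕ, (∀ i ∈ J, β i = 0) → wdeg u β = 0 := by
    intro β hβ
    unfold wdeg
    refine Finset.sum_eq_zero fun i _ => ?_
    by_cases hi : u i = 0
    · rw [hi, zero_mul]
    · rw [hβ i (hJ i hi), Nat.cast_zero, mul_zero]
  rintro _ ⟨γ, hγ, rfl⟩
  have hsplit : γ.filter (· ∈ J) + γ.filter (fun i => ¬ i ∈ J) = γ :=
    Finsupp.filter_add_filter_not γ _
  have hβ : ∀ i ∈ J, (γ.filter (fun i => ¬ i ∈ J)) i = 0 := by
    intro i hi
    exact Finsupp.filter_apply_neg _ _ (by simpa using hi)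
  obtain ⟨β', hβ', hne⟩ := h (γ.filter (· ∈ J)) ⟨γ.filter (fun i => ¬ i ∈ J), hβ, by
    rw [hsplit]; exact hγ⟩
  refine ⟨_, hne, ?_⟩
  rw [wdeg_add, h0 β' hβ']
  conv_rhs => rw [← hsplit, wdeg_add, h0 _ hβ]

/-- **Lemma 2.1, first assertion.** -/
theorem tay_wOrd_stratum {f : Cn n → ℂ} {a b : Cn n} {r : ℝ} (hf : DifferentiableOn ℂ f (ball a r))
    (hb : b ∈ ball a r) {u : Fin n → ℝ} (hub : ∀ i, u i ≠ 0 → b i = a i) :
    wOrd u (tay b f) = wOrd u (tay a f) := by
  classical
  set J : Finset (Fin n) := Finset.univ.filter fun i => u i ≠ 0 with hJ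
  have hJ1 : ∀ i, u i ≠ 0 → i ∈ J := fun i hi => by simp [hJ, hi]
  have hJ2 : ∀ i ∈ J, b i = a i := fun i hi => hub i (by simpa [hJ] using hi)
  unfold wOrd
  congr 1
  exact Subset.antisymm
    (tayStrat_image_subset J hJ1 fun α => (tay_supp_stratum hf hb J hJ2 α).1)
    (tayStrat_image_subset J hJ1 fun α => (tay_supp_stratum hf hb J hJ2 α).2)

/-- weighted orders (in particular the multiplicity `wOrd 1`) are upper semicontinuous in the point. -/
theorem tay_wOrd_usc {f : Cn n → ℂ} {a : Cn n} (hf : AnalyticAt ℂ f a) (hne : tay a f ≠ 0)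
    {u : Fin n → ℝ} (hu : ∀ i, 0 ≤ u i) :
    ∀ᶠ b in 𝓝 a, wOrd u (tay b f) ≤ wOrd u (tay a f) := by
  have h0 : ∀ i : Fin n, (0 : ℝ) ≤ (0 : Fin n → ℝ) i := fun _ => le_rfl
  have : IsWellOrder (Fin n →₀ ℕ) (monoLT u 0) := monoLT_isWellOrder hu h0
  obtain ⟨γ, hγ⟩ := isIni_exists (monoLT u 0) (f := (tay a f : (Fin n →₀ ℕ) → ℂ)) hne
  rw [wOrd_eq_of_isIni hu hγ]
  obtain ⟨r, hr, hd⟩ := tay_analyticAt_iff.1 hf
  have hc : ContinuousAt (fun b => MvPowerSeries.coeff γ (tay b f)) a :=
    ((tay_coeff_differentiableOn isOpen_ball hd γ).continuousOn).continuousAt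
      (isOpen_ball.mem_nhds (mem_ball_self hr))
  have hne' : MvPowerSeries.coeff γ (tay a f) ≠ 0 := hγ.1
  filter_upwards [hc.eventually_ne hne'] with b hb
  exact wOrd_le_of_coeff_ne hu hb

end Claimed.Agent.R242
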