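/-
Row 242 (S0480), package TAY (owner helper233), LEAVES TAY-Div-A (section `div`) and TAY-Div-B (section `factor`).  No paper.

Division by coordinates and monomials ON THE WHOLE POLYDISC, and "a product is unit * monomial `⇒` every factor is".

ROUTES.
* `TayConv.of_monomial_mul`: `coeff γ G = coeff (γ + e) (monomial e 1 * G)` (`MvPowerSeries.coeff_add_monomial_mul`);
  `‖G_γ‖ ρ^{|γ|} = ρ^{-|e|} ‖F_{γ+e}‖ ρ^{|γ+e|}` for `ρ > 0` (`Summable.comp_injective`, `Summable.mul_left`); `ρ = 0`: only `γ = 0` contributes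
  (`summable_of_finite_support` / `summable_of_ne_finset_zero`).
* `tay_monomial_dvd_iff`: `⇒`: `tay a f = monomial e 1 * G`, `g z := tayEval G (z - a)`, `tayEval_mul`, `tayEval_monomial`, `tay_eval_eq`.
  `⇐`: `tay_mul`, `tay_tayMono`.
* `tay_X_dvd_iff_vanish`: `⇒` from `tay_X_pow_dvd_iff`.  `⇐`: `MvPowerSeries.X_dvd_iff`: we must show `coeff γ = 0` if `γ j = 0`.  Let `P` be the projection
  `(P z) i = if i = j then a j else z i`; `f ∘ P = 0` on the ball and `IsTay (f ∘ P) a (the series of f with the terms γ j ≠ 0 removed)`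
  (termwise: `tayMono γ (P z - a) = 0` if `γ j ≠ 0`, `= tayMono γ (z - a)` otherwise); uniqueness.
* `tay_X_prime`: `MvPowerSeries.X_dvd_iff`; with `w = Pi.single j 1` one has `X j ∣ F ↔ F = 0 ∨ 1 ≤ wOrd w F`, and `wOrd_mul` (`Cvx/WOrd.lean`).
  (Or directly: least exponents for `monoLT`, `isIni_mul`.)
* `tay_factor_unit_mono` (continuity of `u` is essential: `z² = u z` with `u 0 := 1`): induction on `|e|`.  `e = 0`: `f g = u` has no zero.  `e j > 0`: `X j ∣ tay f * tay g`, so (say) `f = (z j - a j) f₁` on the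
  ball; then `f₁ g = u * (z - a)^(e - single j 1)` where `z j ≠ a j`, hence everywhere on the ball (both sides continuous, the set is dense;
  or: equality of Taylor series after cancelling `X j` in the domain `MvPowerSeries`, then `tay_injOn`).
* `tay_factors_unit_mono`: induction on the finite index set from `tay_factor_unit_mono` (hypothesis `0 < r` added: false for empty index type and empty ball).
-/
import Claimed.Agent.R242.Tay.Basic
import Claimed.Agent.R242.Cvx.WOrd

set_option autoImplicit false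

namespace Claimed.Agent.R242

open Metric Set Filter Topology

variable {n : ℕ}

section div

variable {f : Cn n → ℂ} {a : Cn n} {r : ℝ}

theorem TayConv.of_monomial_mul {G : MvPowerSeries (Fin n) ℂ} (e : Fin n →₀ ℕ)
    (h : TayConv (MvPowerSeries.monomial e (1 : ℂ) * G) r) : TayConv G r := by
  intro ρ h0 hρ
  rcases h0.eq_or_lt with rfl | hpos
  · refine summable_of_ne_finset_zero (s := {0}) fun γ hγ => ?_
    have hγ0 : γ ≠ 0 := by simpa using hγ
    have hd : γ.degree ≠ 0 := by
      intro hd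
      exact hγ0 ((Finsupp.degree_eq_zero_iff γ).1 hd)
    rw [zero_pow hd, mul_zero]
  · have h1 := (h ρ hpos.le hρ).comp_injective (add_right_injective e)
    have h2 := h1.mul_left ((ρ ^ e.degree)⁻¹)
    refine h2.congr fun γ => ?_
    simp only [Function.comp_apply]
    rw [MvPowerSeries.coeff_add_monomial_mul, one_mul, map_add, pow_add]
    have : ρ ^ e.degree ≠ 0 := (pow_pos hpos _).ne'
    field_simp

theorem tayDiv_sub_mem {z : Cn n} (hz : z ∈ ball a r) : ‖z - a‖ < r := by
  rwa [mem_ball_iff_norm] at hz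

/-- division by a monomial on the whole polydisc. -/
theorem tay_monomial_dvd_iff (hr : 0 < r) (hf : DifferentiableOn ℂ f (ball a r)) (e : Fin n →₀ ℕ) :
    MvPowerSeries.monomial e (1 : ℂ) ∣ tay a f ↔
      ∃ g : Cn n → ℂ, DifferentiableOn ℂ g (ball a r) ∧
        ∀ z ∈ ball a r, f z = tayMono e (z - a) * g z := by
  constructor
  · rintro ⟨G, hG⟩
    have hc : TayConv (MvPowerSeries.monomial e (1 : ℂ) * G) r := hG ▸ tay_conv hf
    have hGc : TayConv G r := TayConv.of_monomial_mul e hc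
    refine ⟨fun z => tayEval G (z - a), ?_, fun z hz => ?_⟩
    · refine hGc.differentiableOn.comp (by fun_prop) fun z hz => ?_
      rw [mem_ball_zero_iff]
      exact tayDiv_sub_mem hz
    · rw [← tay_eval_eq hf hz, hG, tayEval_mul (tayConv_monomial e 1 r) hGc (tayDiv_sub_mem hz),
        tayEval_monomial, one_mul]
  · rintro ⟨g, hg, hfg⟩
    have h1 : f =ᶠ[𝓝 a] fun z => tayMono e (z - a) * g z :=
      Filter.eventuallyEq_of_mem (ball_mem_nhds a hr) hfg
    have h2 : AnalyticAt ℂ (fun z => tayMono e (z - a)) a := by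
      apply tay_analyticAt_of_ball hr (r := r)
      exact ((tayMono_differentiable e).comp (by fun_prop)).differentiableOn
    rw [tay_congr h1, tay_mul h2 (tay_analyticAt_of_ball hr hg), tay_tayMono]
    exact Dvd.intro _ rfl

theorem tay_X_pow_dvd_iff (hr : 0 < r) (hf : DifferentiableOn ℂ f (ball a r)) (j : Fin n) (k : ℕ) :
    (MvPowerSeries.X j : MvPowerSeries (Fin n) ℂ) ^ k ∣ tay a f ↔
      ∃ g : Cn n → ℂ, DifferentiableOn ℂ g (ball a r) ∧
        ∀ z ∈ ball a r, f z = (z j - a j) ^ k * g z := by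
  rw [MvPowerSeries.X_pow_eq, tay_monomial_dvd_iff hr hf]
  simp only [tayMono_single, Pi.sub_apply]

/-- a holomorphic function on a polydisc that vanishes on a coordinate hyperplane through the centre is
divisible by the coordinate. -/
theorem tay_X_dvd_iff_vanish (hr : 0 < r) (hf : DifferentiableOn ℂ f (ball a r)) (j : Fin n) :
    (MvPowerSeries.X j : MvPowerSeries (Fin n) ℂ) ∣ tay a f ↔
      ∀ z ∈ ball a r, z j = a j → f z = 0 := by
  constructor
  · intro h z hz hzj
    have h1 : (MvPowerSeries.X j : MvPowerSeries (Fin n) ℂ) ^ 1 ∣ tay a f := by rwa [pow_one]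
    obtain ⟨g, -, hg⟩ := (tay_X_pow_dvd_iff hr hf j 1).1 h1
    rw [hg z hz, hzj]
    simp
  · intro h
    rw [MvPowerSeries.X_dvd_iff]
    -- the series with the terms `γ j ≠ 0` removed
    let F' : MvPowerSeries (Fin n) ℂ := fun γ => if γ j = 0 then MvPowerSeries.coeff γ (tay a f) else 0
    have hF' : ∀ γ, MvPowerSeries.coeff γ F' = if γ j = 0 then MvPowerSeries.coeff γ (tay a f) else 0 :=
      fun γ => rfl
    have hP : ∀ z ∈ ball a r, Function.update z j (a j) ∈ ball a r := by
      intro z hz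
      rw [mem_ball, dist_pi_lt_iff hr] at hz ⊢
      intro i
      by_cases hij : i = j
      · subst hij
        simpa using hr
      · rw [Function.update_of_ne hij]
        exact hz i
    have hT : IsTay (fun _ => (0 : ℂ)) a F' := by
      refine ⟨r, hr, fun z hz => ?_⟩
      have h1 := tay_hasSum hf (hP z hz)
      rw [h _ (hP z hz) (by simp)] at h1
      have h2 : (fun γ : Fin n →₀ ℕ => MvPowerSeries.coeff γ F' * tayMono γ (z - a)) =
          fun γ => MvPowerSeries.coeff γ (tay a f) * tayMono γ (Function.update z j (a j) - a) := by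
        funext γ
        rw [hF']
        split_ifs with hγ
        · congr 1
          unfold tayMono
          refine Finset.prod_congr rfl fun i _ => ?_
          by_cases hij : i = j
          · subst hij
            simp [hγ]
          · simp [Function.update_of_ne hij]
        · rw [zero_mul]
          symm
          apply mul_eq_zero_of_right
          unfold tayMono
          exact Finset.prod_eq_zero (Finset.mem_univ j) (by simp [hγ])
      rw [h2]
      exact h1
    have h0 : F' = 0 := by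
      rw [← hT.tay_eq, tay_const, map_zero]
    intro γ hγ
    have h3 := hF' γ
    rw [if_pos hγ, h0] at h3
    rw [← h3]
    simp

end div

section factor

/-- the part of a series not involving `X j` -/
noncomputable def tayDivCut (j : Fin n) (F : MvPowerSeries (Fin n) ℂ) : MvPowerSeries (Fin n) ℂ :=
  fun γ => if γ j = 0 then MvPowerSeries.coeff γ F else 0

theorem tayDivCut_coeff (j : Fin n) (F : MvPowerSeries (Fin n) ℂ) (γ : Fin n →₀ ℕ) :
    MvPowerSeries.coeff γ (tayDivCut j F) = if γ j = 0 then MvPowerSeries.coeff γ F else 0 := rfl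

theorem tayDivCut_eq_zero_iff (j : Fin n) (F : MvPowerSeries (Fin n) ℂ) :
    tayDivCut j F = 0 ↔ (MvPowerSeries.X j : MvPowerSeries (Fin n) ℂ) ∣ F := by
  rw [MvPowerSeries.X_dvd_iff]
  constructor
  · intro h γ hγ
    have h1 := tayDivCut_coeff j F γ
    rw [if_pos hγ, h] at h1
    rw [← h1]
    simp
  · intro h
    ext γ
    rw [tayDivCut_coeff]
    split_ifs with hγ
    · rw [h γ hγ]; simp
    · simp

theorem tayDivCut_mul (j : Fin n) (F G : MvPowerSeries (Fin n) ℂ) :
    tayDivCut j (F * G) = tayDivCut j F * tayDivCut j G := by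
  classical
  ext γ
  rw [tayDivCut_coeff, MvPowerSeries.coeff_mul, MvPowerSeries.coeff_mul]
  split_ifs with hγ
  · refine Finset.sum_congr rfl fun x hx => ?_
    rw [Finset.HasAntidiagonal.mem_antidiagonal] at hx
    have h1 : x.1 j + x.2 j = 0 := by rw [← Finsupp.add_apply, hx, hγ]
    rw [tayDivCut_coeff, tayDivCut_coeff, if_pos (by omega), if_pos (by omega)]
  · symm
    refine Finset.sum_eq_zero fun x hx => ?_
    rw [Finset.HasAntidiagonal.mem_antidiagonal] at hx
    have h1 : x.1 j + x.2 j ≠ 0 := by rw [← Finsupp.add_apply, hx]; exact hγ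
    rw [tayDivCut_coeff, tayDivCut_coeff]
    by_cases h2 : x.1 j = 0
    · rw [if_neg (show ¬ x.2 j = 0 by omega), mul_zero]
    · rw [if_neg h2, zero_mul]

theorem tay_X_prime (j : Fin n) : Prime (MvPowerSeries.X j : MvPowerSeries (Fin n) ℂ) := by
  refine ⟨?_, ?_, fun F G h => ?_⟩
  · intro h
    have h1 := congrArg (MvPowerSeries.coeff (Finsupp.single j 1)) h
    simp [MvPowerSeries.coeff_X] at h1
  · rw [MvPowerSeries.isUnit_iff_constantCoeff]
    simp
  · rw [← tayDivCut_eq_zero_iff, tayDivCut_mul, mul_eq_zero] at h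
    rwa [← tayDivCut_eq_zero_iff, ← tayDivCut_eq_zero_iff]

theorem tayDiv_X_ne_zero (j : Fin n) : (MvPowerSeries.X j : MvPowerSeries (Fin n) ℂ) ≠ 0 :=
  (tay_X_prime j).ne_zero

theorem tayDiv_mono_differentiableOn (e : Fin n →₀ ℕ) (a : Cn n) (s : Set (Cn n)) :
    DifferentiableOn ℂ (fun z => tayMono e (z - a)) s :=
  ((tayMono_differentiable e).comp (by fun_prop)).differentiableOn

/-- one step: if `X j ∣ tay a f`, split off the coordinate -/
theorem tayDiv_step {f g u : Cn n → ℂ} {a : Cn n} {r : ℝ} (hr : 0 < r)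
    (hf : DifferentiableOn ℂ f (ball a r)) (hg : DifferentiableOn ℂ g (ball a r))
    (hu : DifferentiableOn ℂ u (ball a r)) (e : Fin n →₀ ℕ) (j : Fin n)
    (h : ∀ z ∈ ball a r, f z * g z = u z * tayMono (e + Finsupp.single j 1) (z - a))
    (hd : (MvPowerSeries.X j : MvPowerSeries (Fin n) ℂ) ∣ tay a f) :
    ∃ f₁ : Cn n → ℂ, DifferentiableOn ℂ f₁ (ball a r) ∧ (∀ z ∈ ball a r, f z = (z j - a j) * f₁ z) ∧
      ∀ z ∈ ball a r, f₁ z * g z = u z * tayMono e (z - a) := by
  have hd1 : (MvPowerSeries.X j : MvPowerSeries (Fin n) ℂ) ^ 1 ∣ tay a f := by rwa [pow_one]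
  obtain ⟨f₁, hf₁, hff₁⟩ := (tay_X_pow_dvd_iff hr hf j 1).1 hd1
  simp only [pow_one] at hff₁
  refine ⟨f₁, hf₁, hff₁, ?_⟩
  have hA : DifferentiableOn ℂ (fun z => f₁ z * g z) (ball a r) := hf₁.mul hg
  have hB : DifferentiableOn ℂ (fun z => u z * tayMono e (z - a)) (ball a r) :=
    hu.mul (tayDiv_mono_differentiableOn e a _)
  have hX : AnalyticAt ℂ (fun z : Cn n => z j - a j) a := by
    apply tay_analyticAt_of_ball hr (r := r)
    fun_prop
  have h1 : (fun z => (z j - a j) * (f₁ z * g z)) =ᶠ[𝓝 a]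
      fun z => (z j - a j) * (u z * tayMono e (z - a)) := by
    refine Filter.eventuallyEq_of_mem (ball_mem_nhds a hr) fun z hz => ?_
    have h2 := h z hz
    rw [hff₁ z hz, tayMono_add, tayMono_single, pow_one, Pi.sub_apply] at h2
    show (z j - a j) * (f₁ z * g z) = (z j - a j) * (u z * tayMono e (z - a))
    linear_combination h2
  have h2 := tay_congr h1
  rw [tay_mul hX (tay_analyticAt_of_ball hr hA), tay_mul hX (tay_analyticAt_of_ball hr hB),
    tay_coord] at h2
  have h3 := mul_left_cancel₀ (tayDiv_X_ne_zero j) h2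
  exact tay_injOn isOpen_ball (convex_ball a r).isPreconnected hA hB (mem_ball_self hr) h3

theorem tayDiv_factor_aux {a : Cn n} {r : ℝ} (hr : 0 < r) (N : ℕ) :
    ∀ (e : Fin n →₀ ℕ), e.degree = N → ∀ (f g u : Cn n → ℂ),
    DifferentiableOn ℂ f (ball a r) → DifferentiableOn ℂ g (ball a r) →
    DifferentiableOn ℂ u (ball a r) → (∀ z ∈ ball a r, u z ≠ 0) →
    (∀ z ∈ ball a r, f z * g z = u z * tayMono e (z - a)) →
    ∃ (e₁ e₂ : Fin n →₀ ℕ) (u₁ u₂ : Cn n → ℂ), e₁ + e₂ = e ∧
      DifferentiableOn ℂ u₁ (ball a r) ∧ DifferentiableOn ℂ u₂ (ball a r) ∧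
      (∀ z ∈ ball a r, u₁ z ≠ 0) ∧ (∀ z ∈ ball a r, u₂ z ≠ 0) ∧
      (∀ z ∈ ball a r, f z = u₁ z * tayMono e₁ (z - a)) ∧
      (∀ z ∈ ball a r, g z = u₂ z * tayMono e₂ (z - a)) := by
  induction N with
  | zero =>
    intro e he f g u hf hg hu hu0 h
    have he0 : e = 0 := (Finsupp.degree_eq_zero_iff e).1 he
    subst he0
    have h1 : ∀ z ∈ ball a r, f z * g z ≠ 0 := by
      intro z hz
      rw [h z hz, tayMono_zero, mul_one]
      exact hu0 z hz
    exact ⟨0, 0, f, g, by simp, hf, hg, fun z hz => left_ne_zero_of_mul (h1 z hz),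
      fun z hz => right_ne_zero_of_mul (h1 z hz), fun z _ => by rw [tayMono_zero, mul_one],
      fun z _ => by rw [tayMono_zero, mul_one]⟩
  | succ N ih =>
    intro e he f g u hf hg hu hu0 h
    obtain ⟨j, hj⟩ : ∃ j, e j ≠ 0 := by
      by_contra hc
      push Not at hc
      have : e = 0 := Finsupp.ext hc
      rw [this] at he
      simp at he
    obtain ⟨e', rfl⟩ : ∃ e', e = e' + Finsupp.single j 1 := by
      refine ⟨e - Finsupp.single j 1, ?_⟩
      ext i
      by_cases hij : j = i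
      · subst hij
        simp only [Finsupp.coe_add, Finsupp.coe_tsub, Pi.add_apply, Pi.sub_apply,
          Finsupp.single_eq_same]
        omega
      · simp [hij]
    have he' : e'.degree = N := by
      rw [map_add, Finsupp.degree_single] at he
      omega
    have hdvd : (MvPowerSeries.X j : MvPowerSeries (Fin n) ℂ) ∣ tay a f * tay a g := by
      have h1 : (fun z => f z * g z) =ᶠ[𝓝 a]
          fun z => u z * tayMono (e' + Finsupp.single j 1) (z - a) :=
        Filter.eventuallyEq_of_mem (ball_mem_nhds a hr) h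
      have h2 := tay_congr h1
      rw [tay_mul (tay_analyticAt_of_ball hr hf) (tay_analyticAt_of_ball hr hg),
        tay_mul (tay_analyticAt_of_ball hr hu)
          (tay_analyticAt_of_ball hr (tayDiv_mono_differentiableOn _ a _)), tay_tayMono] at h2
      rw [h2]
      refine Dvd.dvd.mul_left ?_ _
      refine ⟨MvPowerSeries.monomial e' 1, ?_⟩
      rw [MvPowerSeries.X_def, MvPowerSeries.monomial_mul_monomial, add_comm, one_mul]
    have hmono : ∀ (e₁ : Fin n →₀ ℕ) (c : ℂ) (z : Cn n),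
        (z j - a j) * (c * tayMono e₁ (z - a)) = c * tayMono (e₁ + Finsupp.single j 1) (z - a) := by
      intro e₁ c z
      rw [tayMono_add, tayMono_single, pow_one, Pi.sub_apply]
      ring
    rcases (tay_X_prime j).dvd_or_dvd hdvd with hd | hd
    · obtain ⟨f₁, hf₁, hff₁, h1⟩ := tayDiv_step hr hf hg hu e' j h hd
      obtain ⟨e₁, e₂, u₁, u₂, hee, hu₁, hu₂, h10, h20, hfu, hgu⟩ :=
        ih e' he' f₁ g u hf₁ hg hu hu0 h1
      refine ⟨e₁ + Finsupp.single j 1, e₂, u₁, u₂, ?_, hu₁, hu₂, h10, h20, fun z hz => ?_, hgu⟩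
      · rw [← hee]; abel
      · rw [hff₁ z hz, hfu z hz, hmono]
    · have h' : ∀ z ∈ ball a r, g z * f z = u z * tayMono (e' + Finsupp.single j 1) (z - a) :=
        fun z hz => by rw [mul_comm, h z hz]
      obtain ⟨g₁, hg₁, hgg₁, h1⟩ := tayDiv_step hr hg hf hu e' j h' hd
      obtain ⟨e₁, e₂, u₁, u₂, hee, hu₁, hu₂, h10, h20, hgu, hfu⟩ :=
        ih e' he' g₁ f u hg₁ hf hu hu0 h1
      refine ⟨e₂, e₁ + Finsupp.single j 1, u₂, u₁, ?_, hu₂, hu₁, h20, h10, hfu, fun z hz => ?_⟩
      · rw [← hee]; abel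
      · rw [hgg₁ z hz, hgu z hz, hmono]

/-- **factors of unit * monomial are unit * monomial** (on the same polydisc). -/
theorem tay_factor_unit_mono {f g u : Cn n → ℂ} {a : Cn n} {r : ℝ}
    (hf : DifferentiableOn ℂ f (ball a r)) (hg : DifferentiableOn ℂ g (ball a r))
    (hu : DifferentiableOn ℂ u (ball a r)) (hu0 : ∀ z ∈ ball a r, u z ≠ 0) (e : Fin n →₀ ℕ)
    (h : ∀ z ∈ ball a r, f z * g z = u z * tayMono e (z - a)) :
    ∃ (e₁ e₂ : Fin n →₀ ℕ) (u₁ u₂ : Cn n → ℂ), e₁ + e₂ = e ∧
      DifferentiableOn ℂ u₁ (ball a r) ∧ DifferentiableOn ℂ u₂ (ball a r) ∧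
      (∀ z ∈ ball a r, u₁ z ≠ 0) ∧ (∀ z ∈ ball a r, u₂ z ≠ 0) ∧
      (∀ z ∈ ball a r, f z = u₁ z * tayMono e₁ (z - a)) ∧
      (∀ z ∈ ball a r, g z = u₂ z * tayMono e₂ (z - a)) := by
  by_cases hr : 0 < r
  · exact tayDiv_factor_aux hr _ e rfl f g u hf hg hu hu0 h
  · have hb : ball a r = ∅ := ball_eq_empty.2 (not_lt.1 hr)
    refine ⟨e, 0, fun _ => 1, fun _ => 1, add_zero e, ?_, ?_, ?_, ?_, ?_, ?_⟩ <;> simp [hb]

theorem tayDiv_prod_differentiableOn {ι : Type*} {f : ι → Cn n → ℂ} {U : Set (Cn n)} (s : Finset ι)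
    (hf : ∀ i, DifferentiableOn ℂ (f i) U) : DifferentiableOn ℂ (fun z => ∏ k ∈ s, f k z) U := by
  classical
  induction s using Finset.induction_on with
  | empty => simp
  | insert i s his ih =>
    simp only [Finset.prod_insert his]
    exact (hf i).mul ih

theorem tayDiv_factors_aux {ι : Type*} {f : ι → Cn n → ℂ} {a : Cn n} {r : ℝ} (hr : 0 < r)
    (hf : ∀ i, DifferentiableOn ℂ (f i) (ball a r)) (s : Finset ι) :
    ∀ (u : Cn n → ℂ) (e : Fin n →₀ ℕ), DifferentiableOn ℂ u (ball a r) →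
    (∀ z ∈ ball a r, u z ≠ 0) →
    (∀ z ∈ ball a r, ∏ i ∈ s, f i z = u z * tayMono e (z - a)) →
    ∃ (o : ι → Fin n →₀ ℕ) (v : ι → Cn n → ℂ), ∑ i ∈ s, o i = e ∧
      (∀ i ∈ s, DifferentiableOn ℂ (v i) (ball a r)) ∧ (∀ i ∈ s, ∀ z ∈ ball a r, v i z ≠ 0) ∧
      ∀ i ∈ s, ∀ z ∈ ball a r, f i z = v i z * tayMono (o i) (z - a) := by
  classical
  induction s using Finset.induction_on with
  | empty =>
    intro u e _ _ h
    have h1 := h a (mem_ball_self hr)
    rw [sub_self, tayMono_at_zero, Finset.prod_empty] at h1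
    have he : e = 0 := by
      by_contra hne
      rw [if_neg hne, mul_zero] at h1
      exact one_ne_zero h1
    exact ⟨fun _ => 0, fun _ => fun _ => 1, by simp [he], by simp, by simp, by simp⟩
  | insert i s his ih =>
    intro u e hu hu0 h
    have hg : DifferentiableOn ℂ (fun z => ∏ k ∈ s, f k z) (ball a r) :=
      tayDiv_prod_differentiableOn s hf
    have h' : ∀ z ∈ ball a r, f i z * ∏ k ∈ s, f k z = u z * tayMono e (z - a) := by
      intro z hz
      have h1 := h z hz
      rwa [Finset.prod_insert his] at h1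
    obtain ⟨e₁, e₂, u₁, u₂, hee, hu₁, hu₂, h10, h20, hfu, hgu⟩ :=
      tay_factor_unit_mono (hf i) hg hu hu0 e h'
    obtain ⟨o, v, hsum, hv, hv0, hfv⟩ := ih u₂ e₂ hu₂ h20 hgu
    have hne : ∀ k ∈ s, k ≠ i := fun k hk hki => his (hki ▸ hk)
    refine ⟨Function.update o i e₁, Function.update v i u₁, ?_, ?_, ?_, ?_⟩
    · rw [Finset.sum_insert his, Function.update_self, ← hee, ← hsum]
      congr 1
      exact Finset.sum_congr rfl fun k hk => Function.update_of_ne (hne k hk) _ _
    · intro k hk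
      rcases Finset.mem_insert.1 hk with rfl | hk
      · rw [Function.update_self]; exact hu₁
      · rw [Function.update_of_ne (hne k hk)]; exact hv k hk
    · intro k hk
      rcases Finset.mem_insert.1 hk with rfl | hk
      · rw [Function.update_self]; exact h10
      · rw [Function.update_of_ne (hne k hk)]; exact hv0 k hk
    · intro k hk
      rcases Finset.mem_insert.1 hk with rfl | hk
      · rw [Function.update_self, Function.update_self]; exact hfu
      · rw [Function.update_of_ne (hne k hk), Function.update_of_ne (hne k hk)]; exact hfv k hk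

/-- the same for finite products. -/
theorem tay_factors_unit_mono {ι : Type*} [Fintype ι] {f : ι → Cn n → ℂ} {u : Cn n → ℂ} {a : Cn n}
    {r : ℝ} (hr : 0 < r) (hf : ∀ i, DifferentiableOn ℂ (f i) (ball a r))
    (hu : DifferentiableOn ℂ u (ball a r)) (hu0 : ∀ z ∈ ball a r, u z ≠ 0) (e : Fin n →₀ ℕ)
    (h : ∀ z ∈ ball a r, ∏ i, f i z = u z * tayMono e (z - a)) :
    ∃ (o : ι → Fin n →₀ ℕ) (v : ι → Cn n → ℂ), ∑ i, o i = e ∧
      (∀ i, DifferentiableOn ℂ (v i) (ball a r)) ∧ (∀ i, ∀ z ∈ ball a r, v i z ≠ 0) ∧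
      ∀ i, ∀ z ∈ ball a r, f i z = v i z * tayMono (o i) (z - a) := by
  obtain ⟨o, v, h1, h2, h3, h4⟩ := tayDiv_factors_aux hr hf Finset.univ u e hu hu0 h
  exact ⟨o, v, h1, fun i => h2 i (Finset.mem_univ i), fun i => h3 i (Finset.mem_univ i),
    fun i => h4 i (Finset.mem_univ i)⟩

/-- the form consumed by `CellFam` (`Loc/Defs.lean`): centre `0`, exponents as functions. -/
theorem tay_factors_unit_mono' {ι : Type*} [Fintype ι] {f : ι → Cn n → ℂ} {u : Cn n → ℂ}
    {r : ℝ} (hf : ∀ i, DifferentiableOn ℂ (f i) (ball 0 r))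
    (hu : DifferentiableOn ℂ u (ball 0 r)) (hu0 : ∀ y ∈ ball (0 : Cn n) r, u y ≠ 0) (e : Fin n → ℕ)
    (h : ∀ y ∈ ball (0 : Cn n) r, ∏ i, f i y = u y * ∏ j, y j ^ e j) :
    ∃ (o : Fin n → ι → ℕ) (v : ι → Cn n → ℂ),
      (∀ i, DifferentiableOn ℂ (v i) (ball 0 r)) ∧ (∀ i, ∀ y ∈ ball (0 : Cn n) r, v i y ≠ 0) ∧
      ∀ i, ∀ y ∈ ball (0 : Cn n) r, f i y = v i y * ∏ j, y j ^ o j i := by
  by_cases hr : 0 < r
  · obtain ⟨o, v, -, h2, h3, h4⟩ := tay_factors_unit_mono hr hf hu hu0
      (Finsupp.equivFunOnFinite.symm e) (fun y hy => by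
        rw [h y hy, sub_zero]
        rfl)
    refine ⟨fun j i => o i j, v, h2, h3, fun i y hy => ?_⟩
    rw [h4 i y hy, sub_zero]
    rfl
  · have hb : ball (0 : Cn n) r = ∅ := ball_eq_empty.2 (not_lt.1 hr)
    refine ⟨fun _ _ => 0, fun _ _ => 1, ?_, ?_, ?_⟩ <;> simp [hb]

end factor

end Claimed.Agent.R242
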