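/-
Row 242 (S0480), package TAY (owner helper233), LEAF TAY-Tube.  No paper.

Weighted orders `wOrd u (tay a f)` (`Cvx/WOrd.lean`) seen analytically: decay on the tubes `|y_j - a_j| ≤ ρ e^{-τ u_j}`.
`tay_tube_bound` is the estimate used in (P1) "test `⇒` non-integrable" (compare `r242_tube_eq_top` of `SCV/Howald.lean`).

ROUTES.
* `tay_scale`: exhibit `IsTay`: `f (c * y) = ∑ c_γ (c * y)^γ`, `tayMono_mul`; `‖c * y‖ ≤ ‖c‖ ‖y‖`.
* `tay_cauchy_multi`: apply `tay_cauchy` (radius `1`... or any `ρ`) to `y ↦ f (a + c * y)` with `c j = ρ j / ρ₀`; or directly `c j = ρ j`, radius `1`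
  (the function is holomorphic on `ball 0 (1 + ε)`).  Coordinates with `ρ j = 0`: the product vanishes unless `γ j = 0`; `tay_scale` covers it.
* `tay_tube_bound`: `C = ∑' ‖c_γ‖ ρ^{|γ|}` (`tay_conv`); `‖(y - a)^γ‖ ≤ ρ^{|γ|} e^{-τ ⟨u,γ⟩}` (`norm_tayMono`, `Finset.prod_le_prod`, `Real.exp_sum`);
  `wOrd u F ≤ ⟨u,γ⟩` if `c_γ ≠ 0` (`wOrd_le_of_coeff_ne`); `norm_tsum_le_tsum_norm`, `tsum_le_tsum`.
* `tay_le_wOrd_of_tube`: `le_wOrd`; if `c_γ ≠ 0` and `⟨u,γ⟩ < w`: `tay_cauchy_multi` with `ρ j = ρ e^{-τ u_j}` gives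
  `‖c_γ‖ ρ^{|γ|} ≤ C e^{-τ (w - ⟨u,γ⟩)} → 0`.
* `tay_small_of_coeff_zero`: `∑_{γ ≠ 0} ‖c_γ‖ ρ^{|γ|} ≤ (ρ/ρ₀) ∑ ‖c_γ‖ ρ₀^{|γ|}`.
-/
import Claimed.Agent.R242.Tay.Basic
import Claimed.Agent.R242.Cvx.WOrd

set_option autoImplicit false

namespace Claimed.Agent.R242

open Metric Set Filter Topology

variable {n : ℕ}

/-- diagonal scalings. -/
theorem tay_scale {f : Cn n → ℂ} (hf : AnalyticAt ℂ f 0) (c : Cn n) (γ : Fin n →₀ ℕ) :
    MvPowerSeries.coeff γ (tay 0 (fun y => f (c * y)))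
      = tayMono γ c * MvPowerSeries.coeff γ (tay 0 f) := by
  obtain ⟨ρ, hρ, hs⟩ := isTay_tay hf
  set G : MvPowerSeries (Fin n) ℂ := fun δ => tayMono δ c * MvPowerSeries.coeff δ (tay 0 f) with hG
  have hGc : ∀ δ, MvPowerSeries.coeff δ G = tayMono δ c * MvPowerSeries.coeff δ (tay 0 f) :=
    fun δ => rfl
  have hT : IsTay (fun y => f (c * y)) 0 G := by
    have hc : 0 < ‖c‖ + 1 := by positivity
    refine ⟨ρ / (‖c‖ + 1), by positivity, fun y hy => ?_⟩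
    have hy' : ‖y‖ < ρ / (‖c‖ + 1) := by simpa using hy
    have hcy : c * y ∈ ball (0 : Cn n) ρ := by
      rw [mem_ball_zero_iff]
      calc ‖c * y‖ ≤ ‖c‖ * ‖y‖ := norm_mul_le c y
        _ ≤ (‖c‖ + 1) * ‖y‖ := by gcongr; linarith
        _ < (‖c‖ + 1) * (ρ / (‖c‖ + 1)) := by gcongr
        _ = ρ := by field_simp
    have h := hs (c * y) hcy
    have e : (fun δ : Fin n →₀ ℕ => MvPowerSeries.coeff δ G * tayMono δ (y - 0))
        = fun δ => MvPowerSeries.coeff δ (tay 0 f) * tayMono δ (c * y - 0) := by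
      funext δ
      rw [hGc, sub_zero, sub_zero, tayMono_mul]
      ring
    rw [e]
    exact h
  rw [hT.tay_eq, hGc]

theorem tay_cauchy_multi_aux {f : Cn n → ℂ} {a : Cn n} {r : ℝ} (hr : 0 < r)
    (hf : DifferentiableOn ℂ f (ball a r))
    {ρ : Fin n → ℝ} {M : ℝ} (h0 : ∀ j, 0 ≤ ρ j) (hρ : ∀ j, ρ j < r)
    (hM : ∀ z : Cn n, (∀ j, ‖z j - a j‖ ≤ ρ j) → ‖f z‖ ≤ M) (γ : Fin n →₀ ℕ) :
    ‖MvPowerSeries.coeff γ (tay a f)‖ * ∏ j, ρ j ^ γ j ≤ M := by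
  set c : Cn n := fun j => (ρ j : ℂ) with hc
  have hcj : ∀ j, ‖c j‖ = ρ j := fun j => by
    rw [hc]
    simp only [Complex.norm_real, Real.norm_eq_abs, abs_of_nonneg (h0 j)]
  have hcn : ‖c‖ < r := by
    rw [pi_norm_lt_iff hr]
    intro j
    rw [hcj]
    exact hρ j
  set m' : ℝ := (‖c‖ + r) / 2 with hm'
  have hm'0 : 0 < m' := by
    have := norm_nonneg c
    rw [hm']
    linarith
  have hm'r : m' < r := by rw [hm']; linarith
  have hcm' : ‖c‖ < m' := by rw [hm']; linarith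
  set R : ℝ := r / m' with hR
  have hR1 : 1 < R := by
    rw [hR, one_lt_div hm'0]
    exact hm'r
  have hmap : ∀ y ∈ ball (0 : Cn n) R, a + c * y ∈ ball a r := by
    intro y hy
    rw [mem_ball_zero_iff] at hy
    rw [mem_ball_iff_norm, add_sub_cancel_left]
    have hR0 : 0 < R := by linarith
    calc ‖c * y‖ ≤ ‖c‖ * ‖y‖ := norm_mul_le c y
      _ ≤ ‖c‖ * R := by gcongr
      _ < m' * R := by gcongr
      _ = r := by rw [hR]; field_simp
  set f₁ : Cn n → ℂ := fun y => f (a + y) with hf₁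
  have hf₁a : AnalyticAt ℂ f₁ 0 := by
    refine tay_analyticAt_of_ball hr (a := (0 : Cn n)) ?_
    have h1 : DifferentiableOn ℂ (fun y : Cn n => a + y) (ball 0 r) := by fun_prop
    refine hf.comp h1 ?_
    intro y hy
    rw [mem_ball_zero_iff] at hy
    rw [mem_ball_iff_norm, add_sub_cancel_left]
    exact hy
  have hg : DifferentiableOn ℂ (fun y => f₁ (c * y)) (ball 0 R) := by
    have h1 : DifferentiableOn ℂ (fun y : Cn n => a + c * y) (ball 0 R) := by fun_prop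
    exact hf.comp h1 hmap
  have hgM : ∀ z ∈ closedBall (0 : Cn n) 1, ‖f₁ (c * z)‖ ≤ M := by
    intro z hz
    rw [mem_closedBall_zero_iff] at hz
    refine hM _ fun j => ?_
    simp only [Pi.add_apply, Pi.mul_apply, add_sub_cancel_left, norm_mul, hcj]
    calc ρ j * ‖z j‖ ≤ ρ j * 1 := by
          have := (norm_le_pi_norm z j).trans hz
          have := h0 j
          gcongr
      _ = ρ j := mul_one _
  have h := tay_cauchy hg zero_le_one hR1 hgM γ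
  rw [tay_scale hf₁a, one_pow, mul_one, norm_mul, norm_tayMono, ← tay_eq_tay_zero] at h
  simp only [hcj] at h
  rwa [mul_comm] at h

/-- Cauchy estimates with a multiradius. -/
theorem tay_cauchy_multi {f : Cn n → ℂ} {a : Cn n} {r : ℝ} (hf : DifferentiableOn ℂ f (ball a r))
    {ρ : Fin n → ℝ} {M : ℝ} (h0 : ∀ j, 0 ≤ ρ j) (hρ : ∀ j, ρ j < r)
    (hM : ∀ z : Cn n, (∀ j, ‖z j - a j‖ ≤ ρ j) → ‖f z‖ ≤ M) (γ : Fin n →₀ ℕ) :
    ‖MvPowerSeries.coeff γ (tay a f)‖ * ∏ j, ρ j ^ γ j ≤ M := by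
  by_cases hr : 0 < r
  · exact tay_cauchy_multi_aux hr hf h0 hρ hM γ
  · have hE : IsEmpty (Fin n) := ⟨fun j => hr ((h0 j).trans_lt (hρ j))⟩
    have hf' : DifferentiableOn ℂ f (ball a 1) := fun z _ =>
      (hasFDerivAt_of_subsingleton f z).differentiableAt.differentiableWithinAt
    exact tay_cauchy_multi_aux one_pos hf' h0 (fun j => hE.elim j) hM γ

theorem tay_tube_prod {ρ τ : ℝ} (u : Fin n → ℝ) (γ : Fin n →₀ ℕ) :
    ∏ j, (ρ * Real.exp (-τ * u j)) ^ γ j = ρ ^ γ.degree * Real.exp (-τ * wdeg u γ) := by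
  simp only [mul_pow, Finset.prod_mul_distrib, Finset.prod_pow_eq_pow_sum, ← Real.exp_nat_mul,
    ← Real.exp_sum]
  congr 2
  · rw [Finsupp.degree_eq_sum]
  · unfold wdeg
    rw [Finset.mul_sum]
    refine Finset.sum_congr rfl fun i _ => ?_
    ring

/-- explicit constant -/
theorem tay_tube_bound_aux {f : Cn n → ℂ} {a : Cn n} {r ρ : ℝ} (hf : DifferentiableOn ℂ f (ball a r))
    (h0 : 0 ≤ ρ) (hρ : ρ < r) {u : Fin n → ℝ} (hu : ∀ i, 0 ≤ u i) {τ : ℝ} (hτ : 0 ≤ τ) {y : Cn n}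
    (hy : ∀ j, ‖y j - a j‖ ≤ ρ * Real.exp (-τ * u j)) :
    ‖f y‖ ≤ (∑' γ : Fin n →₀ ℕ, ‖MvPowerSeries.coeff γ (tay a f)‖ * ρ ^ γ.degree) *
      Real.exp (-τ * wOrd u (tay a f)) := by
  have hr : 0 < r := h0.trans_lt hρ
  have hyb : y ∈ ball a r := by
    rw [mem_ball_iff_norm, pi_norm_lt_iff hr]
    intro j
    refine lt_of_le_of_lt ((hy j).trans ?_) hρ
    have : Real.exp (-τ * u j) ≤ 1 := by
      rw [Real.exp_le_one_iff]
      have := mul_nonneg hτ (hu j)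
      linarith
    calc ρ * Real.exp (-τ * u j) ≤ ρ * 1 := by gcongr
      _ = ρ := mul_one _
  have hs := tay_hasSum hf hyb
  have hS := tay_conv hf ρ h0 hρ
  have hle : ∀ γ : Fin n →₀ ℕ, ‖MvPowerSeries.coeff γ (tay a f) * tayMono γ (y - a)‖
      ≤ ‖MvPowerSeries.coeff γ (tay a f)‖ * ρ ^ γ.degree * Real.exp (-τ * wOrd u (tay a f)) := by
    intro γ
    by_cases hc : MvPowerSeries.coeff γ (tay a f) = 0
    · simp [hc]
    rw [norm_mul, mul_assoc]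
    refine mul_le_mul_of_nonneg_left ?_ (norm_nonneg _)
    calc ‖tayMono γ (y - a)‖ = ∏ j, ‖y j - a j‖ ^ γ j := by
          rw [norm_tayMono]
          rfl
      _ ≤ ∏ j, (ρ * Real.exp (-τ * u j)) ^ γ j :=
          Finset.prod_le_prod (fun j _ => by positivity)
            fun j _ => pow_le_pow_left₀ (norm_nonneg _) (hy j) _
      _ = ρ ^ γ.degree * Real.exp (-τ * wdeg u γ) := tay_tube_prod u γ
      _ ≤ ρ ^ γ.degree * Real.exp (-τ * wOrd u (tay a f)) := by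
          have h1 := wOrd_le_of_coeff_ne hu hc
          have h2 : -τ * wdeg u γ ≤ -τ * wOrd u (tay a f) := by nlinarith
          gcongr
  have hS' := hS.mul_right (Real.exp (-τ * wOrd u (tay a f)))
  have hsn : Summable fun γ : Fin n →₀ ℕ => ‖MvPowerSeries.coeff γ (tay a f) * tayMono γ (y - a)‖ :=
    Summable.of_nonneg_of_le (fun _ => norm_nonneg _) hle hS'
  rw [← hs.tsum_eq, ← tsum_mul_right]
  exact (norm_tsum_le_tsum_norm hsn).trans (hsn.tsum_le_tsum hle hS')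

/-- **decay on the tubes.** -/
theorem tay_tube_bound {f : Cn n → ℂ} {a : Cn n} {r ρ : ℝ} (hf : DifferentiableOn ℂ f (ball a r))
    (h0 : 0 ≤ ρ) (hρ : ρ < r) {u : Fin n → ℝ} (hu : ∀ i, 0 ≤ u i) :
    ∃ C : ℝ, 0 ≤ C ∧ ∀ τ : ℝ, 0 ≤ τ → ∀ y : Cn n, (∀ j, ‖y j - a j‖ ≤ ρ * Real.exp (-τ * u j)) →
      ‖f y‖ ≤ C * Real.exp (-τ * wOrd u (tay a f)) :=
  ⟨_, tsum_nonneg fun _ => by positivity, fun _ hτ _ hy => tay_tube_bound_aux hf h0 hρ hu hτ hy⟩

/-- converse: decay on the tubes bounds the weighted order from below. -/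
theorem tay_le_wOrd_of_tube {f : Cn n → ℂ} {a : Cn n} {r ρ : ℝ}
    (hf : DifferentiableOn ℂ f (ball a r)) (hne : tay a f ≠ 0)
    (h0 : 0 < ρ) (hρ : ρ < r) {u : Fin n → ℝ} (hu : ∀ i, 0 ≤ u i) {w C : ℝ}
    (h : ∀ τ : ℝ, 0 ≤ τ → ∀ y : Cn n, (∀ j, ‖y j - a j‖ ≤ ρ * Real.exp (-τ * u j)) →
      ‖f y‖ ≤ C * Real.exp (-τ * w)) :
    w ≤ wOrd u (tay a f) := by
  refine le_wOrd hne fun γ hγ => ?_
  by_contra hlt
  push Not at hlt
  set K : ℝ := ‖MvPowerSeries.coeff γ (tay a f)‖ * ρ ^ γ.degree with hK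
  have hK0 : 0 < K := by
    have : 0 < ‖MvPowerSeries.coeff γ (tay a f)‖ := norm_pos_iff.mpr hγ
    positivity
  set δ : ℝ := w - wdeg u γ with hδ
  have hδ0 : 0 < δ := by rw [hδ]; linarith
  have key : ∀ τ : ℝ, 0 ≤ τ → K * (1 + τ * δ) ≤ C := by
    intro τ hτ
    have h1 := tay_cauchy_multi hf (ρ := fun j => ρ * Real.exp (-τ * u j))
      (M := C * Real.exp (-τ * w)) (fun j => by positivity)
      (fun j => by
        refine lt_of_le_of_lt ?_ hρ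
        have : Real.exp (-τ * u j) ≤ 1 := by
          rw [Real.exp_le_one_iff]
          have := mul_nonneg hτ (hu j)
          linarith
        calc ρ * Real.exp (-τ * u j) ≤ ρ * 1 := by gcongr
          _ = ρ := mul_one _)
      (h τ hτ) γ
    rw [tay_tube_prod, ← mul_assoc, ← hK] at h1
    have h2 : K * Real.exp (τ * δ) ≤ C := by
      have e1 : Real.exp (τ * δ) = Real.exp (-τ * wdeg u γ) * Real.exp (τ * w) := by
        rw [← Real.exp_add, hδ]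
        congr 1
        ring
      have e2 : C = C * Real.exp (-τ * w) * Real.exp (τ * w) := by
        rw [mul_assoc, ← Real.exp_add]
        simp
      rw [e1, e2, ← mul_assoc]
      gcongr
    refine le_trans ?_ h2
    have := Real.add_one_le_exp (τ * δ)
    have h3 : 1 + τ * δ ≤ Real.exp (τ * δ) := by linarith
    gcongr
  have hC0 : 0 < C := by
    have := key 0 le_rfl
    simp only [zero_mul, add_zero, mul_one] at this
    linarith
  have := key (C / (K * δ)) (by positivity)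
  have e : K * (1 + C / (K * δ) * δ) = K + C := by
    field_simp
  rw [e] at this
  linarith

/-- the constant of `tay_tube_bound` is small for small `ρ` when `f a = 0`. -/
theorem tay_tube_bound_small {f : Cn n → ℂ} {a : Cn n} (hf : AnalyticAt ℂ f a) (hfa : f a = 0)
    {u : Fin n → ℝ} (hu : ∀ i, 0 ≤ u i) {ε : ℝ} (hε : 0 < ε) :
    ∃ ρ₀ : ℝ, 0 < ρ₀ ∧ ∀ ρ : ℝ, 0 ≤ ρ → ρ ≤ ρ₀ → ∀ τ : ℝ, 0 ≤ τ → ∀ y : Cn n,
      (∀ j, ‖y j - a j‖ ≤ ρ * Real.exp (-τ * u j)) →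
      ‖f y‖ ≤ ε * Real.exp (-τ * wOrd u (tay a f)) := by
  obtain ⟨r, hr, hd⟩ := tay_analyticAt_iff.mp hf
  set ρ₁ : ℝ := r / 2 with hρ₁
  have hρ₁0 : 0 < ρ₁ := by rw [hρ₁]; linarith
  have hρ₁r : ρ₁ < r := by rw [hρ₁]; linarith
  have hS₁ := tay_conv hd ρ₁ hρ₁0.le hρ₁r
  set S : ℝ := ∑' γ : Fin n →₀ ℕ, ‖MvPowerSeries.coeff γ (tay a f)‖ * ρ₁ ^ γ.degree with hS
  have hS0 : 0 ≤ S := tsum_nonneg fun _ => by positivity
  have hc0 : MvPowerSeries.coeff 0 (tay a f) = 0 := by rw [tay_coeff_zero hf, hfa]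
  refine ⟨min ρ₁ (ρ₁ * ε / (S + 1)), lt_min hρ₁0 (by positivity), ?_⟩
  intro ρ h0 hρ τ hτ y hy
  have hρ1 : ρ ≤ ρ₁ := hρ.trans (min_le_left _ _)
  have hρ2 : ρ ≤ ρ₁ * ε / (S + 1) := hρ.trans (min_le_right _ _)
  have hb := tay_tube_bound_aux hd h0 (hρ1.trans_lt hρ₁r) hu hτ hy
  refine hb.trans ?_
  refine mul_le_mul_of_nonneg_right ?_ (Real.exp_pos _).le
  have hle : ∀ γ : Fin n →₀ ℕ, ‖MvPowerSeries.coeff γ (tay a f)‖ * ρ ^ γ.degree
      ≤ ‖MvPowerSeries.coeff γ (tay a f)‖ * ρ₁ ^ γ.degree * (ρ / ρ₁) := by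
    intro γ
    by_cases hγ : γ = 0
    · rw [hγ, hc0]
      simp
    rw [mul_assoc]
    refine mul_le_mul_of_nonneg_left ?_ (norm_nonneg _)
    have hd1 : 1 ≤ γ.degree := by
      rw [Nat.one_le_iff_ne_zero]
      intro hz
      exact hγ ((Finsupp.degree_eq_zero_iff γ).mp hz)
    have hq0 : 0 ≤ ρ / ρ₁ := by positivity
    have hq1 : ρ / ρ₁ ≤ 1 := (div_le_one hρ₁0).mpr hρ1
    calc ρ ^ γ.degree = ρ₁ ^ γ.degree * (ρ / ρ₁) ^ γ.degree := by
          rw [← mul_pow]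
          congr 1
          field_simp
      _ ≤ ρ₁ ^ γ.degree * (ρ / ρ₁) ^ 1 := by
          have := pow_le_pow_of_le_one hq0 hq1 hd1
          gcongr
      _ = ρ₁ ^ γ.degree * (ρ / ρ₁) := by rw [pow_one]
  have hSρ := tay_conv hd ρ h0 (hρ1.trans_lt hρ₁r)
  calc ∑' γ : Fin n →₀ ℕ, ‖MvPowerSeries.coeff γ (tay a f)‖ * ρ ^ γ.degree
      ≤ ∑' γ : Fin n →₀ ℕ, ‖MvPowerSeries.coeff γ (tay a f)‖ * ρ₁ ^ γ.degree * (ρ / ρ₁) :=
        hSρ.tsum_le_tsum hle (hS₁.mul_right _)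
    _ = S * (ρ / ρ₁) := by rw [tsum_mul_right]
    _ ≤ S * (ε / (S + 1)) := by
        have : ρ / ρ₁ ≤ ε / (S + 1) := by
          rw [div_le_iff₀ hρ₁0]
          calc ρ ≤ ρ₁ * ε / (S + 1) := hρ2
            _ = ε / (S + 1) * ρ₁ := by ring
        gcongr
    _ ≤ ε := by
        rw [← mul_div_assoc, div_le_iff₀ (by positivity)]
        nlinarith

end Claimed.Agent.R242
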