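/-
Row 242 (S0480), package TAY (owner helper233), LEAF TAY-Jac.  Mathlib only (+ Osgood), no paper.

The complex Jacobian `cjac π y = (fderiv ℂ π y).det` and the holomorphic inverse function theorem on `Cn n`.

ROUTES.
* `cjac_comp`: `fderiv_comp`, `ContinuousLinearMap.det`, `LinearMap.det_comp`.
* `cjac_eq_det`: `LinearMap.det_toLin'` / `LinearMap.toMatrix'`: the matrix of `fderiv ℂ π y` in the standard basis has the entries
  `fderiv ℂ π y (Pi.single j 1) i = pd j (fun y => π y i) y` (`fderiv_pi` / `fderiv_apply`).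
* `cjac_analyticAt`: `AnalyticAt.fderiv`, the determinant is a polynomial in the entries (`cjac_eq_det`, `Matrix.det_apply`, finite sums and products of
  analytic functions); then `EventuallyEq`.
* `tay_inverse`: `cjac φ b ≠ 0` makes `fderiv ℂ φ b` a continuous linear equivalence (`LinearEquiv.ofIsUnitDet`/`LinearMap.equivOfDetNeZero`,
  `LinearEquiv.toContinuousLinearEquiv`); `AnalyticAt.contDiffAt`, `ContDiffAt.toOpenPartialHomeomorph`, `ContDiffAt.to_localInverse`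
  (over `ℂ`), the local inverse is `C¹` over `ℂ` near `φ b`, hence analytic (`tay_osgood_pi` on a ball).  (Mathlib also has
  `OpenPartialHomeomorph.analyticAt_symm`.)
* `tay_inverse_ball`: shrink.
-/
import Claimed.Agent.R242.Tay.Osgood
import Claimed.Agent.R242.Tay.Defs

set_option autoImplicit false

namespace Claimed.Agent.R242

open Metric Set Filter Topology

variable {n : ℕ}

theorem cjac_id (y : Cn n) : cjac (fun z => z) y = 1 := by
  unfold cjac
  rw [fderiv_fun_id, ContinuousLinearMap.det]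
  exact LinearMap.det_id

theorem cjac_add_const (c y : Cn n) : cjac (fun z => z + c) y = 1 := by
  rw [← cjac_id y]
  unfold cjac
  rw [fderiv_add_const]

theorem cjac_congr {φ ψ : Cn n → Cn n} {y : Cn n} (h : φ =ᶠ[𝓝 y] ψ) : cjac φ y = cjac ψ y := by
  unfold cjac
  rw [h.fderiv_eq]

theorem cjac_comp {φ ψ : Cn n → Cn n} {y : Cn n} (hφ : DifferentiableAt ℂ φ (ψ y))
    (hψ : DifferentiableAt ℂ ψ y) : cjac (fun z => φ (ψ z)) y = cjac φ (ψ y) * cjac ψ y := by
  unfold cjac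
  rw [fderiv_fun_comp y hφ hψ, ContinuousLinearMap.det, ContinuousLinearMap.det,
    ContinuousLinearMap.det, ← LinearMap.det_comp]
  rfl

/-- the Jacobian as the determinant of the matrix of the derivative (no hypothesis). -/
theorem cjac_eq_det_fderiv (φ : Cn n → Cn n) (y : Cn n) :
    cjac φ y = (Matrix.of fun i j => fderiv ℂ φ y (Pi.single j 1) i).det := by
  unfold cjac
  rw [ContinuousLinearMap.det, ← LinearMap.det_toMatrix']
  congr 1

theorem cjac_eq_det {φ : Cn n → Cn n} {y : Cn n} (hφ : DifferentiableAt ℂ φ y) :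
    cjac φ y = (Matrix.of fun i j => pd j (fun z => φ z i) y).det := by
  rw [cjac_eq_det_fderiv]
  congr 1
  ext i j
  rw [Matrix.of_apply, Matrix.of_apply]
  unfold pd
  rw [(hasFDerivAt_pi'.1 hφ.hasFDerivAt i).fderiv]
  rfl

theorem cjac_analyticAt {φ : Cn n → Cn n} {y : Cn n} (hφ : AnalyticAt ℂ φ y) :
    AnalyticAt ℂ (cjac φ) y := by
  have he : ∀ i j : Fin n, AnalyticAt ℂ (fun z => fderiv ℂ φ z (Pi.single j 1) i) y := by
    intro i j
    have h1 : AnalyticAt ℂ (fderiv ℂ φ) y := hφ.fderiv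
    have h2 : AnalyticAt ℂ (fun L : Cn n →L[ℂ] Cn n => L (Pi.single j 1) i) (fderiv ℂ φ y) :=
      (((ContinuousLinearMap.proj (R := ℂ) (φ := fun _ : Fin n => ℂ) i).comp
        (ContinuousLinearMap.apply ℂ (Cn n) (Pi.single j 1 : Cn n))).analyticAt _)
    exact h2.comp h1
  have e : cjac φ = fun z => ∑ σ : Equiv.Perm (Fin n), ((Equiv.Perm.sign σ : ℤ) : ℂ) *
      ∏ i, fderiv ℂ φ z (Pi.single i 1) (σ i) := by
    funext z
    rw [cjac_eq_det_fderiv, Matrix.det_apply']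
    rfl
  rw [e]
  refine Finset.analyticAt_fun_sum _ fun σ _ => analyticAt_const.mul ?_
  exact Finset.analyticAt_fun_prod _ fun i _ => he _ _

theorem cjac_differentiableOn {φ : Cn n → Cn n} {U : Set (Cn n)} (hU : IsOpen U)
    (hφ : DifferentiableOn ℂ φ U) : DifferentiableOn ℂ (cjac φ) U := fun z hz =>
  (cjac_analyticAt (tay_osgood_pi hU hφ z hz)).differentiableAt.differentiableWithinAt

/-- diagonal maps `y ↦ (c_j y_j)`. -/
theorem cjac_diag (c y : Cn n) : cjac (fun z => c * z) y = ∏ j, c j := by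
  have h : HasFDerivAt (fun z : Cn n => c * z) (ContinuousLinearMap.mul ℂ (Cn n) c) y :=
    (ContinuousLinearMap.mul ℂ (Cn n) c).hasFDerivAt
  rw [cjac_eq_det_fderiv, h.fderiv, ← Matrix.det_diagonal]
  congr 1
  ext i j
  rw [Matrix.of_apply, Matrix.diagonal_apply, ContinuousLinearMap.mul_apply', Pi.mul_apply,
    Pi.single_apply]
  by_cases hij : i = j
  · rw [if_pos hij, if_pos hij, mul_one]
  · rw [if_neg hij, if_neg hij, mul_zero]

/-- the local homeomorphism of the inverse function theorem, with all its properties. -/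
theorem tay_inverse_aux {φ : Cn n → Cn n} {b : Cn n} (hφ : AnalyticAt ℂ φ b) (hj : cjac φ b ≠ 0) :
    ∃ e : OpenPartialHomeomorph (Cn n) (Cn n), (e : Cn n → Cn n) = φ ∧ b ∈ e.source ∧
      (∀ y ∈ e.source, AnalyticAt ℂ φ y → cjac φ y ≠ 0 → AnalyticAt ℂ e.symm (φ y)) := by
  have hj' : (fderiv ℂ φ b).det ≠ 0 := hj
  have hs : HasStrictFDerivAt φ
      (((fderiv ℂ φ b).toContinuousLinearEquivOfDetNeZero hj' : Cn n ≃L[ℂ] Cn n) : Cn n →L[ℂ] Cn n)
      b := by
    rw [ContinuousLinearMap.coe_toContinuousLinearEquivOfDetNeZero]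
    exact hφ.hasStrictFDerivAt
  refine ⟨hs.toOpenPartialHomeomorph φ, hs.toOpenPartialHomeomorph_coe,
    hs.mem_toOpenPartialHomeomorph_source, fun y hy hy1 hy2 => ?_⟩
  have hy2' : (fderiv ℂ φ y).det ≠ 0 := hy2
  have h1 := (hs.toOpenPartialHomeomorph φ).analyticAt_symm'
    (i := (fderiv ℂ φ y).toContinuousLinearEquivOfDetNeZero hy2') hy
    (by rw [hs.toOpenPartialHomeomorph_coe]; exact hy1)
    (by rw [hs.toOpenPartialHomeomorph_coe,
      ContinuousLinearMap.coe_toContinuousLinearEquivOfDetNeZero])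
  rwa [hs.toOpenPartialHomeomorph_coe] at h1

/-- **holomorphic inverse function theorem**, germ form. -/
theorem tay_inverse {φ : Cn n → Cn n} {b : Cn n} (hφ : AnalyticAt ℂ φ b) (hj : cjac φ b ≠ 0) :
    ∃ ψ : Cn n → Cn n, AnalyticAt ℂ ψ (φ b) ∧ ψ (φ b) = b ∧ (∀ᶠ y in 𝓝 b, ψ (φ y) = y) ∧
      (∀ᶠ w in 𝓝 (φ b), φ (ψ w) = w) ∧ cjac ψ (φ b) ≠ 0 := by
  obtain ⟨e, he, hb, han⟩ := tay_inverse_aux hφ hj
  have h1 : AnalyticAt ℂ e.symm (φ b) := han b hb hφ hj
  have h2 : ∀ᶠ y in 𝓝 b, e.symm (φ y) = y := by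
    filter_upwards [e.open_source.mem_nhds hb] with y hy
    rw [← he]
    exact e.left_inv hy
  have hbt : φ b ∈ e.target := by
    rw [← he]
    exact e.map_source hb
  refine ⟨e.symm, h1, h2.self_of_nhds, h2, ?_, ?_⟩
  · filter_upwards [e.open_target.mem_nhds hbt] with w hw
    rw [← he]
    exact e.right_inv hw
  · intro h0
    have h3 := cjac_comp (φ := e.symm) (ψ := φ) (y := b) h1.differentiableAt hφ.differentiableAt
    rw [cjac_congr (ψ := fun z => z) h2, cjac_id, h0, zero_mul] at h3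
    exact one_ne_zero h3

/-- **holomorphic inverse function theorem** on balls: `φ` is injective with nonvanishing Jacobian on `ball b ρ`, `ρ ≤ ρ₀` as small as we
like, and there is a holomorphic inverse `ψ : ball (φ b) s → ball b ρ`. -/
theorem tay_inverse_ball {φ : Cn n → Cn n} {b : Cn n} (hφ : AnalyticAt ℂ φ b) (hj : cjac φ b ≠ 0)
    {ρ₀ : ℝ} (hρ₀ : 0 < ρ₀) :
    ∃ (ρ s : ℝ) (ψ : Cn n → Cn n), 0 < ρ ∧ ρ ≤ ρ₀ ∧ 0 < s ∧
      DifferentiableOn ℂ φ (ball b ρ) ∧ InjOn φ (ball b ρ) ∧ (∀ y ∈ ball b ρ, cjac φ y ≠ 0) ∧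
      IsOpen (φ '' ball b ρ) ∧
      DifferentiableOn ℂ ψ (ball (φ b) s) ∧ MapsTo ψ (ball (φ b) s) (ball b ρ) ∧ ψ (φ b) = b ∧
      (∀ w ∈ ball (φ b) s, φ (ψ w) = w) ∧ (∀ y ∈ ball b ρ, φ y ∈ ball (φ b) s → ψ (φ y) = y) := by
  obtain ⟨e, he, hb, han⟩ := tay_inverse_aux hφ hj
  have hev : ∀ᶠ y in 𝓝 b, y ∈ e.source ∧ AnalyticAt ℂ φ y ∧ cjac φ y ≠ 0 :=
    (e.open_source.eventually_mem hb).and (hφ.eventually_analyticAt.and
      ((cjac_analyticAt hφ).continuousAt.eventually_ne hj))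
  obtain ⟨ρ₁, hρ₁, hball⟩ := Metric.eventually_nhds_iff_ball.1 hev
  set ρ := min ρ₁ ρ₀ with hρdef
  have hρ : 0 < ρ := lt_min hρ₁ hρ₀
  have hsub : ∀ y ∈ ball b ρ, y ∈ e.source ∧ AnalyticAt ℂ φ y ∧ cjac φ y ≠ 0 := fun y hy =>
    hball y (ball_subset_ball (min_le_left _ _) hy)
  have hopen : IsOpen (φ '' ball b ρ) := by
    rw [← he]
    exact e.isOpen_image_of_subset_source isOpen_ball fun y hy => (hsub y hy).1
  obtain ⟨s, hs, hsball⟩ := Metric.isOpen_iff.1 hopen (φ b) ⟨b, mem_ball_self hρ, rfl⟩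
  have hleft : ∀ y ∈ ball b ρ, e.symm (φ y) = y := fun y hy => by
    rw [← he]
    exact e.left_inv (hsub y hy).1
  refine ⟨ρ, s, e.symm, hρ, min_le_right _ _, hs, ?_, ?_, fun y hy => (hsub y hy).2.2, hopen, ?_, ?_,
    hleft b (mem_ball_self hρ), ?_, fun y hy _ => hleft y hy⟩
  · exact fun y hy => (hsub y hy).2.1.differentiableAt.differentiableWithinAt
  · rw [← he]
    exact e.injOn.mono fun y hy => (hsub y hy).1
  · intro w hw
    obtain ⟨y, hy, rfl⟩ := hsball hw
    exact (han y (hsub y hy).1 (hsub y hy).2.1 (hsub y hy).2.2).differentiableAt.differentiableWithinAt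
  · intro w hw
    obtain ⟨y, hy, rfl⟩ := hsball hw
    rw [hleft y hy]
    exact hy
  · intro w hw
    obtain ⟨y, hy, rfl⟩ := hsball hw
    rw [hleft y hy]

end Claimed.Agent.R242
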