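/-
Row 242 (S0480), package TAY (owner helper233), LEAVES TAY-Comp-A (section `word`) and TAY-Comp-B (section `subst`, LOW PRIORITY).
Paper: Lemma 2.1 (`lem:monomial-local`), second assertion.

Weighted orders under holomorphic maps.  NO formal substitution is needed for the `wOrd` statements: use the analytic characterisation
of `Tay/Tube.lean`.

ROUTES.
* `tay_wOrd_comp_le`: put `a = φ b`, `w = wOrd u (tay a f)`.  `f` is holomorphic on `ball a R`; fix `ρ_f < R`.  By `tay_tube_bound_small` applied to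
  `φ_i - a_i` (with `ε = ρ_f`, weights `u'`) there is `ρ > 0` such that on the tube `|y_j - b_j| ≤ ρ e^{-τ u'_j}`:
  `|φ_i y - a_i| ≤ ρ_f e^{-τ wOrd u' Φ_i} ≤ ρ_f e^{-τ u_i}` (if `Φ_i = 0` then `φ_i - a_i = 0` near `b`: shrink `ρ`).  `tay_tube_bound` for `f` gives
  `|f (φ y)| ≤ C e^{-τ w}`; conclude with `tay_le_wOrd_of_tube`.
* `tay_wOrd_comp_eq`: `≥` from `tay_wOrd_comp_le` (`wOrd u ((y_i - b_i) v) = u_i + wOrd u (tay v) ≥ u_i` by `tay_mul`, `tay_coord`, `wOrd_mul`; for `u_i = 0` use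
  `wOrd_nonneg`).  `≤`: the same for the inverse `ψ` of `tay_inverse`: `ψ_i z - b_i = (z_i - a_i) / v (ψ z)`; `f = (f ∘ φ) ∘ ψ` near `a` (`tay_congr`).
  The case `tay = 0`: `f ∘ φ = 0` near `b` iff `f = 0` near `a` (compose with `ψ` resp. `φ`), then both orders are `wOrd u 0`.
* `tay_comp`: truncate `F = tay a f` at degree `N`; polynomial part: `tay_sum`, `tay_prod`, `tay_pow`, `MvPowerSeries.subst` is an algebra hom
  (`MvPowerSeries.substAlgHom`, `coeff_subst`); remainder: `|g_N z| ≤ C ‖z - a‖^N`, `|φ y - a| ≤ C' ‖y - b‖`, `tay_cauchy` with `ρ → 0` kills the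
  coefficients of degree `< N`; on the formal side `coeff e (Φ^d) = 0` for `|e| < |d|`.
-/
import Claimed.Agent.R242.Tay.Tube
import Claimed.Agent.R242.Tay.Jac

set_option autoImplicit false

namespace Claimed.Agent.R242

open Metric Set Filter Topology

section word

variable {m n : ℕ}

/-- a holomorphic map that is compatible with the weights does not decrease weighted orders. -/
theorem tay_wOrd_comp_le {φ : Cn m → Cn n} {f : Cn n → ℂ} {b : Cn m} (hφ : AnalyticAt ℂ φ b)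
    (hf : AnalyticAt ℂ f (φ b)) {u : Fin n → ℝ} {u' : Fin m → ℝ} (hu : ∀ i, 0 ≤ u i)
    (hu' : ∀ i, 0 ≤ u' i)
    (h : ∀ i, tay b (fun y => φ y i - φ b i) = 0 ∨ u i ≤ wOrd u' (tay b (fun y => φ y i - φ b i)))
    (hne : tay b (fun y => f (φ y)) ≠ 0) :
    wOrd u (tay (φ b) f) ≤ wOrd u' (tay b (fun y => f (φ y))) := by
  obtain ⟨R, hR, hfR⟩ := Metric.eventually_nhds_iff_ball.1 hf.eventually_analyticAt
  have hfd : DifferentiableOn ℂ f (ball (φ b) R) := fun z hz =>
    (hfR z hz).differentiableAt.differentiableWithinAt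
  obtain ⟨C, -, hCb⟩ := tay_tube_bound hfd (ρ := R / 2) (by positivity) (by linarith) hu
  have hcomp : AnalyticAt ℂ (fun y => f (φ y)) b := hf.comp hφ
  obtain ⟨r', hr', hcr⟩ := Metric.eventually_nhds_iff_ball.1 hcomp.eventually_analyticAt
  have hcd : DifferentiableOn ℂ (fun y => f (φ y)) (ball b r') := fun z hz =>
    (hcr z hz).differentiableAt.differentiableWithinAt
  have hgi : ∀ i, AnalyticAt ℂ (fun y => φ y i - φ b i) b := fun i =>
    ((analyticAt_pi_iff.1 hφ) i).sub analyticAt_const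
  have hP : ∀ i, ∀ᶠ ρ in 𝓝[>] (0 : ℝ), ∀ τ : ℝ, 0 ≤ τ → ∀ y : Cn m,
      (∀ j, ‖y j - b j‖ ≤ ρ * Real.exp (-τ * u' j)) →
      ‖φ y i - φ b i‖ ≤ R / 2 * Real.exp (-τ * u i) := by
    intro i
    rcases h i with h0 | h1
    · have h2 := (tay_eq_zero_iff (hgi i)).1 h0
      obtain ⟨δ, hδ, hδb⟩ := Metric.eventually_nhds_iff_ball.1 h2
      filter_upwards [Ioo_mem_nhdsGT hδ] with ρ hρ τ hτ y hy
      have hyb : y ∈ ball b δ := by
        rw [mem_ball, dist_eq_norm, pi_norm_lt_iff hδ]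
        intro j
        have h3 : Real.exp (-τ * u' j) ≤ 1 := Real.exp_le_one_iff.2 (by nlinarith [hu' j])
        calc ‖(y - b) j‖ = ‖y j - b j‖ := rfl
          _ ≤ ρ * Real.exp (-τ * u' j) := hy j
          _ ≤ ρ * 1 := mul_le_mul_of_nonneg_left h3 hρ.1.le
          _ < δ := by linarith [hρ.2]
      have h4 : φ y i - φ b i = 0 := hδb y hyb
      rw [h4, norm_zero]
      positivity
    · obtain ⟨ρ₀, hρ₀, hb⟩ := tay_tube_bound_small (hgi i) (by simp) hu' (ε := R / 2) (by positivity)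
      filter_upwards [Ioo_mem_nhdsGT hρ₀] with ρ hρ τ hτ y hy
      refine (hb ρ hρ.1.le hρ.2.le τ hτ y hy).trans ?_
      have h5 : Real.exp (-τ * wOrd u' (tay b fun y => φ y i - φ b i)) ≤ Real.exp (-τ * u i) :=
        Real.exp_le_exp.2 (by nlinarith)
      exact mul_le_mul_of_nonneg_left h5 (by positivity)
  have hI : ∀ᶠ ρ in 𝓝[>] (0 : ℝ), ρ ∈ Ioo 0 r' := Ioo_mem_nhdsGT hr'
  obtain ⟨ρ, hρP, hρr⟩ := ((eventually_all.2 hP).and hI).exists
  refine tay_le_wOrd_of_tube hcd hne hρr.1 hρr.2 hu' (C := C) fun τ hτ y hy => ?_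
  exact hCb τ hτ (φ y) fun i => hρP i τ hτ y hy

theorem tay_X_ne_zero (i : Fin n) : (MvPowerSeries.X i : MvPowerSeries (Fin n) ℂ) ≠ 0 := by
  classical
  intro h0
  have h1 := congrArg (MvPowerSeries.coeff (Finsupp.single i 1)) h0
  rw [MvPowerSeries.coeff_X] at h1
  simp at h1

theorem tay_le_wOrd_X {u : Fin n → ℝ} (i : Fin n) :
    u i ≤ wOrd u (MvPowerSeries.X i : MvPowerSeries (Fin n) ℂ) := by
  classical
  refine le_wOrd (tay_X_ne_zero i) fun γ hγ => ?_
  rw [MvPowerSeries.coeff_X] at hγ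
  have hγ' : γ = Finsupp.single i 1 := by
    by_contra hne
    exact hγ (if_neg hne)
  rw [hγ', wdeg, Finset.sum_eq_single i]
  · simp
  · intro j _ hj
    simp [Ne.symm hj]
  · simp

/-- a function of the form `(y_i - b_i) * unit` has weighted order at least `u i`. -/
theorem tay_le_wOrd_coord_mul {g v : Cn n → ℂ} {b : Cn n} {u : Fin n → ℝ} (hu : ∀ i, 0 ≤ u i)
    (i : Fin n) (hv : AnalyticAt ℂ v b) (hv0 : v b ≠ 0)
    (hg : ∀ᶠ y in 𝓝 b, g y = (y i - b i) * v y) : u i ≤ wOrd u (tay b g) := by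
  have h1 : tay b g = MvPowerSeries.X i * tay b v := by
    have hc : AnalyticAt ℂ (fun y : Cn n => y i - b i) b :=
      ((ContinuousLinearMap.proj (R := ℂ) (φ := fun _ : Fin n => ℂ) i).analyticAt b).sub
        analyticAt_const
    rw [tay_congr (g := fun y => (y i - b i) * v y) hg, tay_mul hc hv, tay_coord]
  have hv1 : tay b v ≠ 0 := by
    intro h0
    have := tay_coeff_zero hv
    rw [h0] at this
    exact hv0 (by simpa using this.symm)
  rw [h1, wOrd_mul hu (tay_X_ne_zero i) hv1]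
  linarith [tay_le_wOrd_X (u := u) i, wOrd_nonneg hu (tay b v)]

/-- **Lemma 2.1, second assertion**: a weighted order is unchanged by a local biholomorphism that multiplies every coordinate of positive
weight by a unit (the coordinates of weight zero may change arbitrarily). -/
theorem tay_wOrd_comp_eq {φ : Cn n → Cn n} {f : Cn n → ℂ} {b : Cn n} (hφ : AnalyticAt ℂ φ b)
    (hj : cjac φ b ≠ 0) (hf : AnalyticAt ℂ f (φ b)) {u : Fin n → ℝ} (hu : ∀ i, 0 ≤ u i)
    (h : ∀ i, u i ≠ 0 → ∃ v : Cn n → ℂ, AnalyticAt ℂ v b ∧ v b ≠ 0 ∧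
      ∀ᶠ y in 𝓝 b, φ y i - φ b i = (y i - b i) * v y) :
    wOrd u (tay b (fun y => f (φ y))) = wOrd u (tay (φ b) f) := by
  obtain ⟨ψ, hψ, hψa, hψφ, hφψ, -⟩ := tay_inverse hφ hj
  have hcomp : AnalyticAt ℂ (fun y => f (φ y)) b := hf.comp hφ
  have hψt : Tendsto ψ (𝓝 (φ b)) (𝓝 b) := by
    have := hψ.continuousAt.tendsto
    rwa [hψa] at this
  have hback : (fun z => f (φ (ψ z))) =ᶠ[𝓝 (φ b)] f := by
    filter_upwards [hφψ] with z hz
    rw [hz]
  by_cases hf0 : tay (φ b) f = 0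
  · have h1 : f =ᶠ[𝓝 (φ b)] 0 := (tay_eq_zero_iff hf).1 hf0
    have h2 : (fun y => f (φ y)) =ᶠ[𝓝 b] 0 := hφ.continuousAt.tendsto.eventually h1
    rw [hf0, (tay_eq_zero_iff hcomp).2 h2]
  have hc0 : tay b (fun y => f (φ y)) ≠ 0 := by
    intro h0
    have h1 : (fun y => f (φ y)) =ᶠ[𝓝 b] 0 := (tay_eq_zero_iff hcomp).1 h0
    have h2 : (fun z => f (φ (ψ z))) =ᶠ[𝓝 (φ b)] 0 := hψt.eventually h1
    exact hf0 ((tay_eq_zero_iff hf).2 (hback.symm.trans h2))
  refine le_antisymm ?_ ?_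
  · -- the inverse map
    have hcomp' : AnalyticAt ℂ (fun y => f (φ y)) (ψ (φ b)) := by rwa [hψa]
    have key := tay_wOrd_comp_le (φ := ψ) (f := fun y => f (φ y)) (b := φ b) hψ hcomp' hu hu
      (fun i => by
        right
        by_cases hui : u i = 0
        · rw [hui]
          exact wOrd_nonneg hu _
        · obtain ⟨v, hv, hv0, hve⟩ := h i hui
          have hvψ : AnalyticAt ℂ (fun z => v (ψ z)) (φ b) := by
            have hv' : AnalyticAt ℂ v (ψ (φ b)) := by rwa [hψa]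
            exact hv'.comp hψ
          have hvψ0 : v (ψ (φ b)) ≠ 0 := by rwa [hψa]
          refine tay_le_wOrd_coord_mul hu i (hvψ.inv hvψ0) (inv_ne_zero hvψ0) ?_
          filter_upwards [hψt.eventually hve, hφψ, hvψ.continuousAt.eventually_ne hvψ0]
            with z hz1 hz2 hz3
          rw [hz2] at hz1
          rw [hψa, hz1]
          simp only [Pi.inv_apply]
          field_simp)
      (by rwa [tay_congr hback])
    rw [hψa, tay_congr hback] at key
    exact key
  · refine tay_wOrd_comp_le hφ hf hu hu (fun i => ?_) hc0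
    right
    by_cases hui : u i = 0
    · rw [hui]
      exact wOrd_nonneg hu _
    · obtain ⟨v, hv, hv0, hve⟩ := h i hui
      exact tay_le_wOrd_coord_mul hu i hv hv0 hve

end word

end Claimed.Agent.R242
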