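/-
Row 242 (S0480), package TAY (owner helper233), LEAF TAY-Null.  No paper.

The zero set of a holomorphic function `≢ 0` on a connected open set of `Cn n` is nowhere dense and Lebesgue null.

ROUTES.
* `tay_frequently_ne`: otherwise `f = 0` near `z`, so `f = 0` on `U` (`AnalyticOnNhd.eqOn_zero_of_preconnected_of_eventuallyEq_zero`, `tay_osgood`).
* `tay_zero_null_ball` (induction on `n`, for all `f, a, r`): `n = 0`: the ball is a point where `f ≠ 0`.  `n + 1`: identify `Cn (n+1) ≃ ℂ × Cn n`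
  (`MeasurableEquiv.piFinSuccAbove` with `volume_preserving_piFinSuccAbove`, index `0`; the ball is the product of the balls).
  The set `Z` is measurable (closed in the ball).  For `z' ∈ ball (tail a) r`: either the slice `t ↦ f (cons t z')` vanishes identically on the disc or its zero set
  in the disc is countable (`AnalyticOnNhd.preimage_zero_mem_codiscreteWithin`-type / isolated zeros + second countability), hence null.  The set `B` of
  the bad `z'` is contained in the zero set of `z' ↦ f (cons t₀ z')` for every `t₀`; choose `(t₀, z₀')` with `f ≠ 0`: by induction `B` is null.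
  `Measure.measure_prod_null` / `measure_prod_null_of_ae_null` (Fubini for null sets).
* `tay_zero_null`: `U` is a countable union of balls `ball a r ⊆ U` (`TopologicalSpace.IsTopologicalBasis`/ Lindelöf: `IsOpen.exists_iUnion...`,
  or rational centres), on each of them `f ≢ 0` by `tay_frequently_ne`.
-/
import Claimed.Agent.R242.Tay.Osgood
import Claimed.Agent.R242.Tay.Defs

set_option autoImplicit false

namespace Claimed.Agent.R242

open Metric Set Filter Topology MeasureTheory

variable {n : ℕ} {f : Cn n → ℂ} {U : Set (Cn n)}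

theorem tay_frequently_ne (hU : IsOpen U) (hc : IsPreconnected U) (hf : DifferentiableOn ℂ f U)
    (hne : ∃ z ∈ U, f z ≠ 0) : ∀ z ∈ U, ∃ᶠ w in 𝓝 z, f w ≠ 0 := by
  intro z hz hcon
  obtain ⟨z₀, hz₀, hfz₀⟩ := hne
  have h0 : f =ᶠ[𝓝 z] 0 := by
    filter_upwards [hcon] with w hw
    simpa using hw
  exact hfz₀ ((tay_osgood hU hf).eqOn_zero_of_preconnected_of_eventuallyEq_zero hc hz h0 hz₀)

theorem tay_zero_nowhereDense (hU : IsOpen U) (hc : IsPreconnected U) (hf : DifferentiableOn ℂ f U)
    (hne : ∃ z ∈ U, f z ≠ 0) : IsNowhereDense {z | z ∈ U ∧ f z = 0} := by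
  unfold IsNowhereDense
  rw [Set.eq_empty_iff_forall_notMem]
  intro x hx
  set Z := {z | z ∈ U ∧ f z = 0} with hZ
  have hVo : IsOpen (interior (closure Z)) := isOpen_interior
  have hxc : x ∈ closure Z := interior_subset hx
  obtain ⟨y, hyV, hyZ⟩ := mem_closure_iff.1 hxc _ hVo hx
  -- a point `w` of `V ∩ U` with `f w ≠ 0`
  have hnhds : interior (closure Z) ∩ U ∈ 𝓝 y := (hVo.inter hU).mem_nhds ⟨hyV, hyZ.1⟩
  obtain ⟨w, hfw, hwV, hwU⟩ := ((tay_frequently_ne hU hc hf hne y hyZ.1).and_eventually hnhds).exists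
  have hcont : ContinuousAt f w := (hf.differentiableAt (hU.mem_nhds hwU)).continuousAt
  have hW : {v | f v ≠ 0} ∈ 𝓝 w := hcont.eventually_ne hfw
  obtain ⟨W, hWsub, hWo, hwW⟩ := _root_.mem_nhds_iff.1 hW
  obtain ⟨v, hvW, hvZ⟩ := mem_closure_iff.1 (interior_subset hwV) W hWo hwW
  exact hWsub hvW hvZ.2

/-- one variable: the zero set of a holomorphic function `≢ 0` on a disc is null. -/
theorem tay_zero_null_disc {g : ℂ → ℂ} {c : ℂ} {r : ℝ} (hg : DifferentiableOn ℂ g (ball c r))
    (hne : ∃ t ∈ ball c r, g t ≠ 0) : volume {t | t ∈ ball c r ∧ g t = 0} = 0 := by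
  obtain ⟨t₀, ht₀, hgt₀⟩ := hne
  have han : AnalyticOnNhd ℂ g (ball c r) := hg.analyticOnNhd isOpen_ball
  refine measure_null_of_locally_null _ fun x hx => ⟨{x}, ?_, measure_singleton x⟩
  rcases (han x hx.1).eventually_eq_zero_or_eventually_ne_zero with h | h
  · exact absurd (han.eqOn_zero_of_preconnected_of_eventuallyEq_zero
      (convex_ball c r).isPreconnected hx.1 h ht₀) hgt₀
  · rw [eventually_nhdsWithin_iff] at h
    rw [mem_nhdsWithin_iff_eventually]
    filter_upwards [h] with z hz hzZ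
    by_contra hzx
    exact hz hzx hzZ.2

theorem tay_cons_mem_ball {a : Cn (n + 1)} {r : ℝ} (hr : 0 < r) (t : ℂ) (z' : Cn n) :
    (Fin.cons t z' : Cn (n + 1)) ∈ ball a r ↔ t ∈ ball (a 0) r ∧ z' ∈ ball (Fin.tail a) r := by
  rw [mem_ball, mem_ball, mem_ball, dist_pi_lt_iff hr, dist_pi_lt_iff hr, Fin.forall_fin_succ]
  simp [Fin.tail]

theorem tay_differentiable_cons_left (z' : Cn n) :
    Differentiable ℂ (fun t : ℂ => (Fin.cons t z' : Cn (n + 1))) := by
  rw [differentiable_pi]
  intro i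
  refine Fin.cases ?_ (fun j => ?_) i
  · simp
  · simp

theorem tay_differentiable_cons_right (t : ℂ) :
    Differentiable ℂ (fun z' : Cn n => (Fin.cons t z' : Cn (n + 1))) := by
  rw [differentiable_pi]
  intro i
  refine Fin.cases ?_ (fun j => ?_) i
  · simp
  · simpa using differentiable_apply (𝕜 := ℂ) j

theorem tay_measurableSet_zero {a : Cn n} {r : ℝ} (hf : DifferentiableOn ℂ f (ball a r)) :
    MeasurableSet {z | z ∈ ball a r ∧ f z = 0} := by
  obtain ⟨u, hu, hu'⟩ := continuousOn_iff_isClosed.1 hf.continuousOn {0} isClosed_singleton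
  have : {z | z ∈ ball a r ∧ f z = 0} = u ∩ ball a r := by
    rw [← hu']
    ext z
    simp [and_comm]
  rw [this]
  exact hu.measurableSet.inter measurableSet_ball

theorem tay_zero_null_ball_aux : ∀ (n : ℕ) (f : Cn n → ℂ) (a : Cn n) (r : ℝ),
    DifferentiableOn ℂ f (ball a r) → (∃ z ∈ ball a r, f z ≠ 0) →
    volume {z | z ∈ ball a r ∧ f z = 0} = 0 := by
  intro n
  induction n with
  | zero =>
    intro f a r _ hne
    obtain ⟨z₀, _, hfz₀⟩ := hne
    have : {z | z ∈ ball a r ∧ f z = 0} = ∅ := by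
      rw [Set.eq_empty_iff_forall_notMem]
      rintro z ⟨_, hz⟩
      exact hfz₀ (by rw [Subsingleton.elim z₀ z, hz])
    rw [this, measure_empty]
  | succ n ih =>
    intro f a r hf hne
    obtain ⟨z₀, hz₀, hfz₀⟩ := hne
    have hr : 0 < r := dist_nonneg.trans_lt hz₀
    set Z := {z | z ∈ ball a r ∧ f z = 0} with hZ
    have hZm : MeasurableSet Z := tay_measurableSet_zero hf
    set e := MeasurableEquiv.piFinSuccAbove (fun _ : Fin (n + 1) => ℂ) 0 with he
    have hes : ∀ (t : ℂ) (z' : Cn n), e.symm (t, z') = (Fin.cons t z' : Cn (n + 1)) := by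
      intro t z'
      have h1 : e.symm (t, z') = (0 : Fin (n + 1)).insertNth (α := fun _ => ℂ) t z' := rfl
      rw [h1, Fin.insertNth_zero']
    have hmp : MeasurePreserving e.symm volume volume :=
      (volume_preserving_piFinSuccAbove (fun _ : Fin (n + 1) => ℂ) 0).symm e
    rw [← hmp.measure_preimage_equiv Z, Measure.volume_eq_prod,
      Measure.measure_prod_null (e.symm.measurable hZm)]
    have hz₀' : (Fin.cons (z₀ 0) (Fin.tail z₀) : Cn (n + 1)) = z₀ := Fin.cons_self_tail z₀
    have hz₀b := hz₀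
    rw [← hz₀', tay_cons_mem_ball hr] at hz₀b
    -- the bad set
    have hB : volume {t | t ∈ ball (a 0) r ∧ f (Fin.cons t (Fin.tail z₀)) = 0} = 0 := by
      refine tay_zero_null_disc (g := fun t => f (Fin.cons t (Fin.tail z₀))) ?_
        ⟨z₀ 0, hz₀b.1, by rw [hz₀']; exact hfz₀⟩
      refine hf.comp (tay_differentiable_cons_left (Fin.tail z₀)).differentiableOn ?_
      intro t ht
      exact (tay_cons_mem_ball hr t _).2 ⟨ht, hz₀b.2⟩
    rw [measure_eq_zero_iff_ae_notMem] at hB
    filter_upwards [hB] with t ht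
    have hslice : Prod.mk t ⁻¹' (e.symm ⁻¹' Z)
        = {z' : Cn n | t ∈ ball (a 0) r ∧ z' ∈ ball (Fin.tail a) r ∧ f (Fin.cons t z') = 0} := by
      ext z'
      simp only [Set.mem_preimage, hes, hZ, Set.mem_ofPred_eq, tay_cons_mem_ball hr, and_assoc]
    rw [hslice, Pi.zero_apply]
    by_cases htb : t ∈ ball (a 0) r
    · have hgt : f (Fin.cons t (Fin.tail z₀)) ≠ 0 := fun h => ht ⟨htb, h⟩
      have := ih (fun z' => f (Fin.cons t z')) (Fin.tail a) r
        (hf.comp (tay_differentiable_cons_right t).differentiableOn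
          (fun z' hz' => (tay_cons_mem_ball hr t z').2 ⟨htb, hz'⟩))
        ⟨Fin.tail z₀, hz₀b.2, hgt⟩
      refine measure_mono_null ?_ this
      rintro z' ⟨_, h1, h2⟩
      exact ⟨h1, h2⟩
    · have : {z' : Cn n | t ∈ ball (a 0) r ∧ z' ∈ ball (Fin.tail a) r ∧ f (Fin.cons t z') = 0}
          = ∅ := by
        rw [Set.eq_empty_iff_forall_notMem]
        rintro z' ⟨h, _⟩
        exact htb h
      rw [this, measure_empty]

theorem tay_zero_null_ball {a : Cn n} {r : ℝ} (hf : DifferentiableOn ℂ f (ball a r))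
    (hne : ∃ z ∈ ball a r, f z ≠ 0) : volume {z | z ∈ ball a r ∧ f z = 0} = 0 :=
  tay_zero_null_ball_aux n f a r hf hne

theorem tay_zero_null (hU : IsOpen U) (hc : IsPreconnected U) (hf : DifferentiableOn ℂ f U)
    (hne : ∃ z ∈ U, f z ≠ 0) : volume {z | z ∈ U ∧ f z = 0} = 0 := by
  refine measure_null_of_locally_null _ fun x hx => ?_
  obtain ⟨r, hr, hsub⟩ := Metric.isOpen_iff.1 hU x hx.1
  refine ⟨{z | z ∈ ball x r ∧ f z = 0}, ?_, ?_⟩
  · rw [mem_nhdsWithin_iff_eventually]
    filter_upwards [ball_mem_nhds x hr] with z hz hzZ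
    exact ⟨hz, hzZ.2⟩
  · refine tay_zero_null_ball (hf.mono hsub) ?_
    obtain ⟨w, hfw, hwb⟩ :=
      ((tay_frequently_ne hU hc hf hne x hx.1).and_eventually (ball_mem_nhds x hr)).exists
    exact ⟨w, hwb, hfw⟩

end Claimed.Agent.R242
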